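import Vale.Agent.P251.H.Cof.Basic

/-!
# P251, part H: left properness and the gluing lemma
-/

open CategoryTheory Limits

universe w v u v' u'

attribute [local simp] coprod.inl_desc coprod.inr_desc coprod.inl_desc_assoc coprod.inr_desc_assoc

namespace Vale.Agent.P251.H

namespace CofCat

variable {C : Type u} [Category.{v} C] [HasZeroObject C] [HasZeroMorphisms C]
  [HasBinaryCoproducts C] [CofCat C]

/-- The homotopy extension property at the other end. -/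
lemma AC_hep' {A B P : C} {j : A ⟶ B} (hj : Cof j) {a : B ⟶ P} {b : Cyl.obj A ⟶ P}
    (hP : IsPushout (ι₁ A) j b a) (d : P ⟶ Cyl.obj B) (hd₀ : a ≫ d = ι₁ B)
    (hd : b ≫ d = Cyl.map j) : AC d := by
  have ha : AC a := (AC_ι₁ A).pushout hP
  have hdW : W d := W_of_comp_left a d ha.w (by rw [hd₀]; exact W_ι₁ B)
  refine ⟨?_, hdW⟩
  obtain ⟨Z, z, y, hZ⟩ := exists_pushout j (ι₀ A ≫ b) hj
  have hz : Cof y := Cof_pushout hZ hj
  have hw := hP.w
  have hZ' : IsPushout (coprod.map j j) (ends A) (coprod.desc z (a ≫ y)) (b ≫ y) := by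
    refine ⟨⟨?_⟩, ⟨PushoutCocone.IsColimit.mk _
      (fun s => hZ.desc (coprod.inl ≫ s.inl) (hP.desc s.inr (coprod.inr ≫ s.inl) ?_) ?_) ?_ ?_ ?_⟩⟩
    · ext
      · simp only [coprod.inl_map_assoc, coprod.inl_desc, inl_ends_assoc]
        rw [hZ.w, Category.assoc]
      · simp only [coprod.inr_map_assoc, coprod.inr_desc, inr_ends_assoc]
        rw [reassoc_of% hw]
    · have := coprod.inr ≫= s.condition
      simpa using this.symm
    · have := coprod.inl ≫= s.condition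
      simpa using this
    · intro s
      ext
      · simp
      · simp
    · intro s; simp
    · intro s m h₁ h₂
      apply hZ.hom_ext
      · have := coprod.inl ≫= h₁
        simpa using this
      · apply hP.hom_ext
        · simpa using h₂
        · have := coprod.inr ≫= h₁
          simpa using this
  let d' : Z ⟶ Cyl.obj B := hZ.desc (ι₀ B) d (by rw [Category.assoc, hd, ι₀_map])
  have hd' : Cof d' := by
    refine Cof_pushoutProduct j (coprod.desc z (a ≫ y)) (b ≫ y) d' hj hZ' ?_ ?_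
    · ext
      · simp only [coprod.inl_desc_assoc, coprod.inl_desc]
        rw [hZ.inl_desc]; rfl
      · simp only [coprod.inr_desc_assoc, Category.assoc, coprod.inr_desc]
        rw [hZ.inr_desc, hd₀]; rfl
    · rw [Category.assoc, hZ.inr_desc, hd]
  have : d = y ≫ d' := (hZ.inr_desc _ _ _).symm
  rw [this]
  exact Cof_comp _ _ hz hd'

lemma cof_Cyl_map {A B : C} {j : A ⟶ B} (hj : Cof j) : Cof (Cyl.map j) := by
  obtain ⟨P, b, a, hP⟩ := exists_pushout (ι₀ A) j (cof_ι₀ A)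
  let d : P ⟶ Cyl.obj B := hP.desc (Cyl.map j) (ι₀ B) (ι₀_map j)
  have hd : AC d := AC_hep hj hP d (hP.inr_desc _ _ _) (hP.inl_desc _ _ _)
  have e : Cyl.map j = b ≫ d := (hP.inl_desc _ _ _).symm
  rw [e]
  exact Cof_comp _ _ (Cof_pushout hP.flip hj) hd.cof

/-- Homotopic maps give weakly equivalent pushouts (one end). -/
lemma AC_pushout_end₀ {M D M' E G : C} {y : M ⟶ D} (hy : Cof y) {H : Cyl.obj M ⟶ M'}
    {x : Cyl.obj D ⟶ E} {z : M' ⟶ E} (hE : IsPushout (Cyl.map y) H x z)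
    {a : D ⟶ G} {b : M' ⟶ G} (hG : IsPushout y (ι₀ M ≫ H) a b)
    (e : G ⟶ E) (he₁ : a ≫ e = ι₀ D ≫ x) (he₂ : b ≫ e = z) : AC e := by
  obtain ⟨N, s, t, hN⟩ := exists_pushout (ι₀ M) y (cof_ι₀ M)
  let d : N ⟶ Cyl.obj D := hN.desc (Cyl.map y) (ι₀ D) (ι₀_map y)
  have hd : AC d := AC_hep hy hN d (hN.inr_desc _ _ _) (hN.inl_desc _ _ _)
  let g : N ⟶ G := hN.desc (H ≫ b) a (by rw [hG.w, Category.assoc])
  have hsg : s ≫ g = H ≫ b := hN.inl_desc _ _ _
  have htg : t ≫ g = a := hN.inr_desc _ _ _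
  have hsd : s ≫ d = Cyl.map y := hN.inl_desc _ _ _
  have htd : t ≫ d = ι₀ D := hN.inr_desc _ _ _
  refine hd.pushout (i := d) (f := g) (j := x) (k := e) ⟨⟨?_⟩, ⟨PushoutCocone.IsColimit.mk _
      (fun c => hE.desc c.inl (b ≫ c.inr) ?_) ?_ ?_ ?_⟩⟩
  · apply hN.hom_ext
    · rw [reassoc_of% hsd, reassoc_of% hsg, he₂, hE.w]
    · rw [reassoc_of% htd, reassoc_of% htg, he₁]
  · have := s ≫= c.condition
    simpa only [reassoc_of% hsd, reassoc_of% hsg] using this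
  · intro c; simp
  · intro c
    apply hG.hom_ext
    · rw [reassoc_of% he₁, hE.inl_desc]
      have := t ≫= c.condition
      simpa only [reassoc_of% htd, reassoc_of% htg] using this
    · rw [reassoc_of% he₂, hE.inr_desc]
  · intro c m h₁ h₂
    apply hE.hom_ext
    · simpa using h₁
    · rw [hE.inr_desc, ← h₂, reassoc_of% he₂]

/-- Homotopic maps give weakly equivalent pushouts (the other end). -/
lemma AC_pushout_end₁ {M D M' E G : C} {y : M ⟶ D} (hy : Cof y) {H : Cyl.obj M ⟶ M'}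
    {x : Cyl.obj D ⟶ E} {z : M' ⟶ E} (hE : IsPushout (Cyl.map y) H x z)
    {a : D ⟶ G} {b : M' ⟶ G} (hG : IsPushout y (ι₁ M ≫ H) a b)
    (e : G ⟶ E) (he₁ : a ≫ e = ι₁ D ≫ x) (he₂ : b ≫ e = z) : AC e := by
  obtain ⟨N, s, t, hN⟩ := exists_pushout (ι₁ M) y (cof_ι₁ M)
  let d : N ⟶ Cyl.obj D := hN.desc (Cyl.map y) (ι₁ D) (ι₁_map y)
  have hd : AC d := AC_hep' hy hN d (hN.inr_desc _ _ _) (hN.inl_desc _ _ _)
  let g : N ⟶ G := hN.desc (H ≫ b) a (by rw [hG.w, Category.assoc])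
  have hsg : s ≫ g = H ≫ b := hN.inl_desc _ _ _
  have htg : t ≫ g = a := hN.inr_desc _ _ _
  have hsd : s ≫ d = Cyl.map y := hN.inl_desc _ _ _
  have htd : t ≫ d = ι₁ D := hN.inr_desc _ _ _
  refine hd.pushout (i := d) (f := g) (j := x) (k := e) ⟨⟨?_⟩, ⟨PushoutCocone.IsColimit.mk _
      (fun c => hE.desc c.inl (b ≫ c.inr) ?_) ?_ ?_ ?_⟩⟩
  · apply hN.hom_ext
    · rw [reassoc_of% hsd, reassoc_of% hsg, he₂, hE.w]
    · rw [reassoc_of% htd, reassoc_of% htg, he₁]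
  · have := s ≫= c.condition
    simpa only [reassoc_of% hsd, reassoc_of% hsg] using this
  · intro c; simp
  · intro c
    apply hG.hom_ext
    · rw [reassoc_of% he₁, hE.inl_desc]
      have := t ≫= c.condition
      simpa only [reassoc_of% htd, reassoc_of% htg] using this
    · rw [reassoc_of% he₂, hE.inr_desc]
  · intro c m h₁ h₂
    apply hE.hom_ext
    · simpa using h₁
    · rw [hE.inr_desc, ← h₂, reassoc_of% he₂]

/-- left properness, for weak equivalences with a section which is an acyclic cofibration -/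
lemma left_proper_aux {M D X P : C} {y : M ⟶ D} (hy : Cof y) {r : M ⟶ X}
    {k : X ⟶ M} (hk : AC k) (hkr : k ≫ r = 𝟙 X) {a : D ⟶ P} {b : X ⟶ P}
    (hP : IsPushout y r a b) : W a := by
  have hR : R (r ≫ k) (𝟙 M) := by
    apply R.of_W_comp hk.w
    rw [reassoc_of% hkr, Category.comp_id]
    exact R.refl k
  obtain ⟨M', t, ht, H, h₀, h₁⟩ := hR
  rw [Category.id_comp] at h₁
  obtain ⟨E, x, z, hE⟩ := exists_pushout (Cyl.map y) H (cof_Cyl_map hy)
  obtain ⟨G₁, a₁, b₁, hG₁⟩ := exists_pushout y (ι₁ M ≫ H) hy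
  obtain ⟨G₀, a₀, b₀, hG₀⟩ := exists_pushout b (k ≫ t) (Cof_pushout hP hy)
  have hG₀' : IsPushout y (ι₀ M ≫ H) (a ≫ a₀) b₀ := by
    rw [h₀, Category.assoc]; exact hP.paste_vert hG₀
  let e₁ : G₁ ⟶ E := hG₁.desc (ι₁ D ≫ x) z (by rw [← ι₁_map_assoc, hE.w, Category.assoc])
  let e₀ : G₀ ⟶ E := hG₀'.desc (ι₀ D ≫ x) z (by rw [← ι₀_map_assoc, hE.w, Category.assoc])
  have he₁ : AC e₁ := AC_pushout_end₁ hy hE hG₁ e₁ (hG₁.inl_desc _ _ _) (hG₁.inr_desc _ _ _)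
  have he₀ : AC e₀ := AC_pushout_end₀ hy hE hG₀' e₀ (hG₀'.inl_desc _ _ _) (hG₀'.inr_desc _ _ _)
  have ha₁ : AC a₁ := by
    have : AC (ι₁ M ≫ H) := by rw [h₁]; exact ht
    exact this.pushout hG₁.flip
  have hx : W x := by
    apply W_of_comp_left (ι₁ D) x (W_ι₁ D)
    have : ι₁ D ≫ x = a₁ ≫ e₁ := (hG₁.inl_desc _ _ _).symm
    rw [this]; exact W_comp _ _ ha₁.w he₁.w
  have ha₀ : W (a ≫ a₀) := by
    apply W_of_comp_right _ e₀ he₀.w
    have : (a ≫ a₀) ≫ e₀ = ι₀ D ≫ x := hG₀'.inl_desc _ _ _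
    rw [this]; exact W_comp _ _ (W_ι₀ D) hx
  exact W_of_comp_right a a₀ ((hk.comp ht).pushout hG₀.flip).w ha₀

/-- **Left properness**: weak equivalences are stable under cobase change along cofibrations. -/
theorem left_proper {A B X P : C} {i : A ⟶ B} {u : A ⟶ X} {j : B ⟶ P} {k : X ⟶ P}
    (h : IsPushout i u j k) (hi : Cof i) (hu : W u) : W j := by
  obtain ⟨M, j₀, r, k₀, hj₀, hr, hk₀, hjr, hkr⟩ := exists_factor u
  have hj₀A : AC j₀ := ⟨hj₀, W_of_comp_right j₀ r hr (by rwa [hjr])⟩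
  obtain ⟨P₁, x, y, hP₁⟩ := exists_pushout i j₀ hi
  subst hjr
  let a : P₁ ⟶ P := hP₁.desc j (r ≫ k) (by rw [h.w, Category.assoc])
  have hxa : x ≫ a = j := hP₁.inl_desc _ _ _
  have hya : y ≫ a = r ≫ k := hP₁.inr_desc _ _ _
  have h2 : IsPushout y r a k := by
    refine IsPushout.of_top ?_ hya hP₁
    rw [hxa]; exact h
  rw [← hxa]
  exact W_comp _ _ (hj₀A.pushout hP₁.flip).w
    (left_proper_aux (Cof_pushout hP₁ hi) hk₀ hkr h2)

/-- The gluing lemma, relative version: weak equivalences under `A` between objects cofibrant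
under `A` are stable under cobase change. -/
lemma gluing_aux {A B B' X Q Q' : C} {c : A ⟶ B} (hc : Cof c) {w : B ⟶ B'} (hw : W w)
    (hc' : Cof (c ≫ w)) {f : A ⟶ X} {j : B ⟶ Q} {k : X ⟶ Q} (h : IsPushout c f j k)
    {j' : B' ⟶ Q'} {k' : X ⟶ Q'} (h' : IsPushout (c ≫ w) f j' k') (p : Q ⟶ Q')
    (hp : j ≫ p = w ≫ j') (hp' : k ≫ p = k') : W p := by
  obtain ⟨U, a, b, hU⟩ := exists_pushout c (c ≫ w) hc
  obtain ⟨M, e, r, -, he, hr, -, her, -⟩ := exists_factor (hU.desc w (𝟙 B') (by simp))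
  have har : (a ≫ e) ≫ r = w := by rw [Category.assoc, her]; exact hU.inl_desc _ _ _
  have hbr : (b ≫ e) ≫ r = 𝟙 B' := by rw [Category.assoc, her]; exact hU.inr_desc _ _ _
  have hae : AC (a ≫ e) := ⟨Cof_comp _ _ (Cof_pushout hU.flip hc') he,
    W_of_comp_right _ r hr (by rwa [har])⟩
  have hbe : AC (b ≫ e) := ⟨Cof_comp _ _ (Cof_pushout hU hc) he,
    W_of_comp_right _ r hr (by rw [hbr]; exact W_id _)⟩
  -- pushouts of `M`
  obtain ⟨G, m, n, hG⟩ := exists_pushout (a ≫ e) j hae.cof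
  have hn : AC n := hae.pushout hG
  -- `G = M ∪_A X`
  have hG₁ : IsPushout (c ≫ a ≫ e) f m (k ≫ n) := (h.flip.paste_vert hG.flip).flip
  have hwe : c ≫ a ≫ e = (c ≫ w) ≫ b ≫ e := by rw [← Category.assoc, hU.w]; simp
  have hG₂ : IsPushout ((c ≫ w) ≫ b ≫ e) f m (k ≫ n) := by rw [← hwe]; exact hG₁
  let n' : Q' ⟶ G := h'.desc ((b ≫ e) ≫ m) (k ≫ n) (by
    rw [← hG₂.w]; simp)
  have hn'₁ : j' ≫ n' = (b ≫ e) ≫ m := h'.inl_desc _ _ _
  have hn'₂ : k' ≫ n' = k ≫ n := h'.inr_desc _ _ _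
  have hG₃ : IsPushout (b ≫ e) j' m n' := by
    have := IsPushout.of_top (h₁₁ := f) (v₁₁ := c ≫ w) (v₂₁ := b ≫ e) (v₁₂ := k') (h₂₁ := j')
      (v₂₂ := n') (h₃₁ := m) (by rw [hn'₂]; exact hG₂.flip) hn'₁ h'.flip
    exact this.flip
  have hn' : AC n' := hbe.pushout hG₃
  let ρ : G ⟶ Q' := hG₂.desc (r ≫ j') k' (by
    rw [← h'.w]
    have : (b ≫ e) ≫ r ≫ j' = j' := by rw [← Category.assoc, hbr, Category.id_comp]
    rw [Category.assoc, this])
  have hρ₁ : m ≫ ρ = r ≫ j' := hG₂.inl_desc _ _ _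
  have hρ₂ : (k ≫ n) ≫ ρ = k' := hG₂.inr_desc _ _ _
  have hn'ρ : n' ≫ ρ = 𝟙 Q' := by
    apply h'.hom_ext
    · rw [reassoc_of% hn'₁, hρ₁]
      rw [← Category.assoc e, ← Category.assoc b, ← Category.assoc b, hbr, Category.id_comp,
        Category.comp_id]
    · rw [← Category.assoc, hn'₂, hρ₂, Category.comp_id]
  have hρ : W ρ := W_of_comp_left n' ρ hn'.w (by rw [hn'ρ]; exact W_id _)
  have hpn : p = n ≫ ρ := by
    apply h.hom_ext
    · rw [hp, ← reassoc_of% hG.w, hρ₁, ← Category.assoc, ← Category.assoc, har]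
    · rw [hp', ← Category.assoc, hρ₂]
  rw [hpn]
  exact W_comp _ _ hn.w hρ

/-- **The gluing lemma.** -/
theorem gluing {A B X P A' B' X' P' : C} {i : A ⟶ B} {f : A ⟶ X} {j : B ⟶ P} {k : X ⟶ P}
    {i' : A' ⟶ B'} {f' : A' ⟶ X'} {j' : B' ⟶ P'} {k' : X' ⟶ P'}
    (h : IsPushout i f j k) (h' : IsPushout i' f' j' k') (hi : Cof i) (hi' : Cof i')
    {α : A ⟶ A'} {β : B ⟶ B'} {ξ : X ⟶ X'} (hα : W α) (hβ : W β) (hξ : W ξ)
    (w₁ : i ≫ β = α ≫ i') (w₂ : f ≫ ξ = α ≫ f') (p : P ⟶ P')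
    (hj : j ≫ p = β ≫ j') (hk : k ≫ p = ξ ≫ k') : W p := by
  -- Step 1: `P ⟶ P₁ = B ∪_A X'`
  obtain ⟨P₁, a, b, hP₁⟩ := exists_pushout k ξ (Cof_pushout h hi)
  have ha : W a := left_proper hP₁ (Cof_pushout h hi) hξ
  have h₁ : IsPushout i (f ≫ ξ) (j ≫ a) b := h.paste_vert hP₁
  -- Step 2: `B₁ = B ∪_A A'`
  obtain ⟨B₁, x, y, hB₁⟩ := exists_pushout i α hi
  have hx : W x := left_proper hB₁ hi hα
  have hy : Cof y := Cof_pushout hB₁ hi
  let w : B₁ ⟶ B' := hB₁.desc β i' w₁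
  have hxw : x ≫ w = β := hB₁.inl_desc _ _ _
  have hyw : y ≫ w = i' := hB₁.inr_desc _ _ _
  have hw : W w := W_of_comp_left x w hx (by rwa [hxw])
  let j₁ : B₁ ⟶ P₁ := hB₁.desc (j ≫ a) (f' ≫ b) (by
    rw [h₁.w, w₂, Category.assoc])
  have hj₁ : x ≫ j₁ = j ≫ a := hB₁.inl_desc _ _ _
  have hj₁' : y ≫ j₁ = f' ≫ b := hB₁.inr_desc _ _ _
  have h₂ : IsPushout y f' j₁ b := by
    refine IsPushout.of_top (h₁₁ := i) (v₁₁ := α) (v₁₂ := x) ?_ hj₁' hB₁
    rw [hj₁, ← w₂]; exact h₁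
  let q : P₁ ⟶ P' := hP₁.desc p k' hk
  have haq : a ≫ q = p := hP₁.inl_desc _ _ _
  have hbq : b ≫ q = k' := hP₁.inr_desc _ _ _
  have hq : W q := by
    refine gluing_aux (c := y) (w := w) hy hw (by rwa [hyw]) h₂ (by rw [hyw]; exact h') q ?_ hbq
    apply hB₁.hom_ext
    · rw [reassoc_of% hj₁, haq, hj, reassoc_of% hxw]
    · rw [reassoc_of% hj₁', hbq, reassoc_of% hyw, h'.w]
  rw [← haq]
  exact W_comp _ _ ha hq

/-- Collapse lemma: collapsing a contractible cofibrant subobject is a weak equivalence. -/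
theorem collapse {K X Z Y : C} {i : K ⟶ X} {z : K ⟶ Z} (hi : Cof i)
    (hz : W z) {j : X ⟶ Y} {k : Z ⟶ Y} (h : IsPushout i z j k) : W j :=
  left_proper h hi hz

/-- weak equivalences are closed under binary coproducts -/
lemma W_coprod_map {A B A' B' : C} {f : A ⟶ B} {g : A' ⟶ B'} (hf : W f) (hg : W g) :
    W (coprod.map f g) := by
  refine gluing (IsPushout.of_hasBinaryCoproduct (X := A) (Y := A'))
    (IsPushout.of_hasBinaryCoproduct (X := B) (Y := B')) (Cof_zero (isZero_zero C) _)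
    (Cof_zero (isZero_zero C) _) (W_id _) hf hg ?_ ?_ (coprod.map f g) ?_ ?_ <;> simp

end CofCat

end Vale.Agent.P251.H
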