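import Vale.Agent.P251.H.Cof.Cone

/-!
# P251, part H: stars of cones

For an object `A` of a cofibration category:

* `DC A = Cone A ∪_A Cone A` (double cone) with the inclusions `dl`, `dr` of the two cones;
* `q₀ : DC A ⟶ Susp A` collapses the second cone, `q₁ : DC A ⟶ Susp A` the first one,
  `swap : DC A ⟶ DC A` exchanges the cones, `fold : DC A ⟶ Cone A` identifies them;
* `VV A = DC A / A`, a coproduct of two copies `e₀, e₁ : Susp A ⟶ VV A` of `Susp A`, and the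
  projection `dpr : DC A ⟶ VV A`;
* `TC A = DC A ∪_A Cone A` (triple cone), with the inclusions `in₀₁ in₀₂ in₁₂ : DC A ⟶ TC A` and
  the collapse `rr : TC A ⟶ VV A` of the third cone.
-/

open CategoryTheory Limits ZeroObject

universe w v u

namespace Vale.Agent.P251.H

namespace CofCat

attribute [local simp] coprod.inl_desc coprod.inr_desc coprod.inl_desc_assoc coprod.inr_desc_assoc

variable {C : Type u} [Category.{v} C] [HasZeroObject C] [HasZeroMorphisms C]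
  [HasBinaryCoproducts C] [CofCat C]

/-- The double cone `Cone A ∪_A Cone A`. -/
noncomputable def DC : C ⥤ C := po (coneIncl : 𝟭 C ⟶ Cone) (coneIncl : 𝟭 C ⟶ Cone)

/-- the first cone of the double cone -/
noncomputable def dlN : (Cone : C ⥤ C) ⟶ DC := po.inl _ _
/-- the second cone of the double cone -/
noncomputable def drN : (Cone : C ⥤ C) ⟶ DC := po.inr _ _

/-- the first cone of the double cone -/
noncomputable def dl (X : C) : Cone.obj X ⟶ DC.obj X := dlN.app X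
/-- the second cone of the double cone -/
noncomputable def dr (X : C) : Cone.obj X ⟶ DC.obj X := drN.app X

@[reassoc]
theorem cin_dl (X : C) : cin X ≫ dl X = cin X ≫ dr X :=
  po.condition_app (coneIncl : 𝟭 C ⟶ Cone) (coneIncl : 𝟭 C ⟶ Cone) X

@[reassoc]
theorem coneIncl_dlN : (coneIncl : 𝟭 C ⟶ Cone) ≫ dlN = coneIncl ≫ drN :=
  po.condition (coneIncl : 𝟭 C ⟶ Cone) (coneIncl : 𝟭 C ⟶ Cone)

theorem isPushout_dl (X : C) : IsPushout (cin X) (cin X) (dl X) (dr X) :=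
  po.isPushout_app (coneIncl : 𝟭 C ⟶ Cone) (coneIncl : 𝟭 C ⟶ Cone) X

@[reassoc]
theorem dl_naturality {X Y : C} (f : X ⟶ Y) : Cone.map f ≫ dl Y = dl X ≫ DC.map f :=
  dlN.naturality f

@[reassoc]
theorem dr_naturality {X Y : C} (f : X ⟶ Y) : Cone.map f ≫ dr Y = dr X ≫ DC.map f :=
  drN.naturality f

/-- morphisms out of the double cone -/
noncomputable def dDesc {X T : C} (f g : Cone.obj X ⟶ T) (h : cin X ≫ f = cin X ≫ g) :
    DC.obj X ⟶ T :=
  (isPushout_dl X).desc f g h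

@[reassoc (attr := simp)]
theorem dl_dDesc {X T : C} (f g : Cone.obj X ⟶ T) (h : cin X ≫ f = cin X ≫ g) :
    dl X ≫ dDesc f g h = f := (isPushout_dl X).inl_desc _ _ _

@[reassoc (attr := simp)]
theorem dr_dDesc {X T : C} (f g : Cone.obj X ⟶ T) (h : cin X ≫ f = cin X ≫ g) :
    dr X ≫ dDesc f g h = g := (isPushout_dl X).inr_desc _ _ _

theorem dc_hom_ext {X T : C} {f g : DC.obj X ⟶ T} (h₁ : dl X ≫ f = dl X ≫ g)
    (h₂ : dr X ≫ f = dr X ≫ g) : f = g := (isPushout_dl X).hom_ext h₁ h₂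

theorem cof_dl (X : C) : Cof (dl X) := Cof_pushout (isPushout_dl X).flip (cof_cin X)
theorem cof_dr (X : C) : Cof (dr X) := Cof_pushout (isPushout_dl X) (cof_cin X)

/-- the centre of the double cone -/
noncomputable def din (X : C) : X ⟶ DC.obj X := cin X ≫ dl X

theorem din_eq (X : C) : din X = cin X ≫ dr X := cin_dl X

theorem cof_din (X : C) : Cof (din X) := Cof_comp _ _ (cof_cin X) (cof_dl X)

/-- collapse the second cone -/
noncomputable def q₀ (X : C) : DC.obj X ⟶ Susp.obj X := dDesc (cpr X) 0 (by simp)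
/-- collapse the first cone -/
noncomputable def q₁ (X : C) : DC.obj X ⟶ Susp.obj X := dDesc 0 (cpr X) (by simp)
/-- exchange the two cones -/
noncomputable def swap (X : C) : DC.obj X ⟶ DC.obj X := dDesc (dr X) (dl X) (cin_dl X).symm
/-- identify the two cones -/
noncomputable def fold (X : C) : DC.obj X ⟶ Cone.obj X := dDesc (𝟙 _) (𝟙 _) rfl

@[reassoc (attr := simp)] theorem dl_q₀ (X : C) : dl X ≫ q₀ X = cpr X := dl_dDesc _ _ _
@[reassoc (attr := simp)] theorem dr_q₀ (X : C) : dr X ≫ q₀ X = 0 := dr_dDesc _ _ _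
@[reassoc (attr := simp)] theorem dl_q₁ (X : C) : dl X ≫ q₁ X = 0 := dl_dDesc _ _ _
@[reassoc (attr := simp)] theorem dr_q₁ (X : C) : dr X ≫ q₁ X = cpr X := dr_dDesc _ _ _
@[reassoc (attr := simp)] theorem dl_swap (X : C) : dl X ≫ swap X = dr X := dl_dDesc _ _ _
@[reassoc (attr := simp)] theorem dr_swap (X : C) : dr X ≫ swap X = dl X := dr_dDesc _ _ _
@[reassoc (attr := simp)] theorem dl_fold (X : C) : dl X ≫ fold X = 𝟙 _ := dl_dDesc _ _ _
@[reassoc (attr := simp)] theorem dr_fold (X : C) : dr X ≫ fold X = 𝟙 _ := dr_dDesc _ _ _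

@[reassoc]
theorem q₀_naturality {X Y : C} (f : X ⟶ Y) : DC.map f ≫ q₀ Y = q₀ X ≫ Susp.map f := by
  apply dc_hom_ext
  · rw [← dl_naturality_assoc, dl_q₀, dl_q₀_assoc, cpr_naturality]
  · rw [← dr_naturality_assoc, dr_q₀, dr_q₀_assoc, comp_zero, zero_comp]

@[reassoc]
theorem q₁_naturality {X Y : C} (f : X ⟶ Y) : DC.map f ≫ q₁ Y = q₁ X ≫ Susp.map f := by
  apply dc_hom_ext
  · rw [← dl_naturality_assoc, dl_q₁, dl_q₁_assoc, comp_zero, zero_comp]
  · rw [← dr_naturality_assoc, dr_q₁, dr_q₁_assoc, cpr_naturality]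

@[reassoc (attr := simp)]
theorem swap_q₀ (X : C) : swap X ≫ q₀ X = q₁ X := by
  apply dc_hom_ext <;> simp

@[reassoc (attr := simp)]
theorem swap_q₁ (X : C) : swap X ≫ q₁ X = q₀ X := by
  apply dc_hom_ext <;> simp

@[reassoc (attr := simp)]
theorem swap_swap (X : C) : swap X ≫ swap X = 𝟙 _ := by
  apply dc_hom_ext <;> simp

/-- `q₀` collapses the (weakly contractible, cofibrant) second cone. -/
theorem isPushout_q₀ (X : C) :
    IsPushout (dr X) (0 : Cone.obj X ⟶ (0 : C)) (q₀ X) (0 : (0 : C) ⟶ Susp.obj X) := by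
  have h : IsPushout (cin X) (cin X ≫ (0 : Cone.obj X ⟶ (0 : C))) (dl X ≫ q₀ X)
      (0 : (0 : C) ⟶ Susp.obj X) := by
    rw [dl_q₀, comp_zero]
    exact isPushout_cpr X
  exact (IsPushout.of_left h.flip (by simp) (isPushout_dl X).flip).flip

/-- `q₁` collapses the (weakly contractible, cofibrant) first cone. -/
theorem isPushout_q₁ (X : C) :
    IsPushout (dl X) (0 : Cone.obj X ⟶ (0 : C)) (q₁ X) (0 : (0 : C) ⟶ Susp.obj X) := by
  have h : IsPushout (cin X) (cin X ≫ (0 : Cone.obj X ⟶ (0 : C))) (dr X ≫ q₁ X)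
      (0 : (0 : C) ⟶ Susp.obj X) := by
    rw [dr_q₁, comp_zero]
    exact isPushout_cpr X
  exact (IsPushout.of_left h.flip (by simp) (isPushout_dl X)).flip

/-! ### The wedge of two suspensions -/

theorem cof_coneIncl_dlN (X : C) : Cof (((coneIncl : 𝟭 C ⟶ Cone) ≫ dlN).app X) := cof_din X

instance hasPushout_din (X : C) (T : C) (f : (𝟭 C).obj X ⟶ T) :
    HasPushout (((coneIncl : 𝟭 C ⟶ Cone) ≫ dlN).app X) f :=
  hasPushout _ _ (cof_coneIncl_dlN X)

/-- `VV A = DC A / A`, a coproduct of two copies of `Susp A`. -/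
noncomputable def VV : C ⥤ C := po ((coneIncl : 𝟭 C ⟶ Cone) ≫ dlN) (0 : 𝟭 C ⟶ zeroFun C)

/-- The projection `DC A ⟶ VV A = DC A / A`. -/
noncomputable def dprN : (DC : C ⥤ C) ⟶ VV := po.inl _ _

/-- The projection `DC A ⟶ VV A = DC A / A`. -/
noncomputable def dpr (X : C) : DC.obj X ⟶ VV.obj X := dprN.app X

@[reassoc]
theorem dpr_naturality {X Y : C} (f : X ⟶ Y) : DC.map f ≫ dpr Y = dpr X ≫ VV.map f :=
  dprN.naturality f

@[reassoc]
theorem din_dpr (X : C) : din X ≫ dpr X = 0 := by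
  refine (po.condition_app ((coneIncl : 𝟭 C ⟶ Cone) ≫ dlN) (0 : 𝟭 C ⟶ zeroFun C) X).trans ?_
  exact zero_comp

@[reassoc (attr := simp)]
theorem cin_dl_dpr (X : C) : cin X ≫ dl X ≫ dpr X = 0 := by
  rw [← Category.assoc]
  exact din_dpr X

@[reassoc (attr := simp)]
theorem cin_dr_dpr (X : C) : cin X ≫ dr X ≫ dpr X = 0 := by
  rw [← cin_dl_assoc, cin_dl_dpr]

theorem isPushout_dpr (X : C) :
    IsPushout (din X) (0 : X ⟶ (0 : C)) (dpr X) (0 : (0 : C) ⟶ VV.obj X) := by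
  have h := po.isPushout_app ((coneIncl : 𝟭 C ⟶ Cone) ≫ dlN) (0 : 𝟭 C ⟶ zeroFun C) X
  have e : (po.inr ((coneIncl : 𝟭 C ⟶ Cone) ≫ dlN) (0 : 𝟭 C ⟶ zeroFun C)).app X = 0 :=
    (isZero_zero C).eq_of_src _ _
  rw [e] at h
  exact h

theorem vv_hom_ext' {X T : C} {f g : VV.obj X ⟶ T} (h : dpr X ≫ f = dpr X ≫ g) : f = g :=
  (isPushout_dpr X).hom_ext h ((isZero_zero C).eq_of_src _ _)

/-- the first suspension in the wedge `VV` -/
noncomputable def e₀ (X : C) : Susp.obj X ⟶ VV.obj X := suspDesc (dl X ≫ dpr X) (by simp)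
/-- the second suspension in the wedge `VV` -/
noncomputable def e₁ (X : C) : Susp.obj X ⟶ VV.obj X := suspDesc (dr X ≫ dpr X) (by simp)

@[reassoc (attr := simp)]
theorem cpr_e₀ (X : C) : cpr X ≫ e₀ X = dl X ≫ dpr X := cpr_suspDesc _ _
@[reassoc (attr := simp)]
theorem cpr_e₁ (X : C) : cpr X ≫ e₁ X = dr X ≫ dpr X := cpr_suspDesc _ _

theorem vv_hom_ext {X T : C} {f g : VV.obj X ⟶ T} (h₀ : e₀ X ≫ f = e₀ X ≫ g)
    (h₁ : e₁ X ≫ f = e₁ X ≫ g) : f = g := by
  apply vv_hom_ext'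
  apply dc_hom_ext
  · rw [← cpr_e₀_assoc, h₀, cpr_e₀_assoc]
  · rw [← cpr_e₁_assoc, h₁, cpr_e₁_assoc]

/-- morphisms out of the wedge of two suspensions -/
noncomputable def vDesc {X T : C} (f g : Susp.obj X ⟶ T) : VV.obj X ⟶ T :=
  (isPushout_dpr X).desc (dDesc (cpr X ≫ f) (cpr X ≫ g) (by simp)) 0 (by simp [din])

@[reassoc (attr := simp)]
theorem dpr_vDesc {X T : C} (f g : Susp.obj X ⟶ T) :
    dpr X ≫ vDesc f g = dDesc (cpr X ≫ f) (cpr X ≫ g) (by simp) :=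
  (isPushout_dpr X).inl_desc _ _ _

@[reassoc (attr := simp)]
theorem e₀_vDesc {X T : C} (f g : Susp.obj X ⟶ T) : e₀ X ≫ vDesc f g = f := by
  apply susp_hom_ext
  simp

@[reassoc (attr := simp)]
theorem e₁_vDesc {X T : C} (f g : Susp.obj X ⟶ T) : e₁ X ≫ vDesc f g = g := by
  apply susp_hom_ext
  simp

/-- `VV A` is the coproduct of two copies of `Susp A`. -/
noncomputable def isColimitVV (X : C) : IsColimit (BinaryCofan.mk (e₀ X) (e₁ X)) :=
  BinaryCofan.IsColimit.mk _ (fun f g => vDesc f g) (fun f g => e₀_vDesc f g)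
    (fun f g => e₁_vDesc f g) (fun f g m h₀ h₁ => by
      apply vv_hom_ext
      · rw [e₀_vDesc]; exact h₀
      · rw [e₁_vDesc]; exact h₁)

@[reassoc]
theorem e₀_naturality {X Y : C} (f : X ⟶ Y) : Susp.map f ≫ e₀ Y = e₀ X ≫ VV.map f := by
  apply susp_hom_ext
  rw [← cpr_naturality_assoc, cpr_e₀, cpr_e₀_assoc, dl_naturality_assoc, dpr_naturality]

@[reassoc]
theorem e₁_naturality {X Y : C} (f : X ⟶ Y) : Susp.map f ≫ e₁ Y = e₁ X ≫ VV.map f := by
  apply susp_hom_ext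
  rw [← cpr_naturality_assoc, cpr_e₁, cpr_e₁_assoc, dr_naturality_assoc, dpr_naturality]

@[reassoc]
theorem dpr_left (X : C) : dpr X ≫ vDesc (𝟙 _) 0 = q₀ X := by
  apply dc_hom_ext <;> simp

@[reassoc]
theorem dpr_right (X : C) : dpr X ≫ vDesc 0 (𝟙 _) = q₁ X := by
  apply dc_hom_ext <;> simp

@[reassoc]
theorem dpr_fold (X : C) : dpr X ≫ vDesc (𝟙 _) (𝟙 _) = fold X ≫ cpr X := by
  apply dc_hom_ext <;> simp

/-! ### The triple cone -/

theorem hasPushout_din_cin (X : C) : HasPushout (din X) (cin X) := hasPushout _ _ (cof_din X)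

/-- The triple cone `DC A ∪_A Cone A`. -/
noncomputable def TC (X : C) : C :=
  haveI := hasPushout_din_cin X
  pushout (din X) (cin X)

/-- the inclusion of the double cone of the first two cones -/
noncomputable def in₀₁ (X : C) : DC.obj X ⟶ TC X :=
  haveI := hasPushout_din_cin X
  pushout.inl (din X) (cin X)

/-- the third cone -/
noncomputable def tt (X : C) : Cone.obj X ⟶ TC X :=
  haveI := hasPushout_din_cin X
  pushout.inr (din X) (cin X)

theorem isPushout_in₀₁ (X : C) : IsPushout (din X) (cin X) (in₀₁ X) (tt X) :=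
  haveI := hasPushout_din_cin X
  IsPushout.of_hasPushout _ _

theorem cof_tt (X : C) : Cof (tt X) := Cof_pushout (isPushout_in₀₁ X) (cof_din X)

@[reassoc]
theorem cin_dl_in₀₁ (X : C) : cin X ≫ dl X ≫ in₀₁ X = cin X ≫ tt X := by
  rw [← Category.assoc]
  exact (isPushout_in₀₁ X).w

@[reassoc]
theorem cin_dr_in₀₁ (X : C) : cin X ≫ dr X ≫ in₀₁ X = cin X ≫ tt X := by
  rw [← cin_dl_assoc, cin_dl_in₀₁]

/-- the inclusion of the double cone of the first and the third cone -/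
noncomputable def in₀₂ (X : C) : DC.obj X ⟶ TC X := dDesc (dl X ≫ in₀₁ X) (tt X) (cin_dl_in₀₁ X)
/-- the inclusion of the double cone of the second and the third cone -/
noncomputable def in₁₂ (X : C) : DC.obj X ⟶ TC X := dDesc (dr X ≫ in₀₁ X) (tt X) (cin_dr_in₀₁ X)

@[reassoc (attr := simp)]
theorem dl_in₀₂ (X : C) : dl X ≫ in₀₂ X = dl X ≫ in₀₁ X := dl_dDesc _ _ _
@[reassoc (attr := simp)]
theorem dr_in₀₂ (X : C) : dr X ≫ in₀₂ X = tt X := dr_dDesc _ _ _
@[reassoc (attr := simp)]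
theorem dl_in₁₂ (X : C) : dl X ≫ in₁₂ X = dr X ≫ in₀₁ X := dl_dDesc _ _ _
@[reassoc (attr := simp)]
theorem dr_in₁₂ (X : C) : dr X ≫ in₁₂ X = tt X := dr_dDesc _ _ _

/-- morphisms out of the triple cone -/
noncomputable def tDesc {X T : C} (f : DC.obj X ⟶ T) (g : Cone.obj X ⟶ T)
    (h : din X ≫ f = cin X ≫ g) : TC X ⟶ T :=
  (isPushout_in₀₁ X).desc f g h

@[reassoc (attr := simp)]
theorem in₀₁_tDesc {X T : C} (f : DC.obj X ⟶ T) (g : Cone.obj X ⟶ T)
    (h : din X ≫ f = cin X ≫ g) : in₀₁ X ≫ tDesc f g h = f :=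
  (isPushout_in₀₁ X).inl_desc _ _ _

@[reassoc (attr := simp)]
theorem tt_tDesc {X T : C} (f : DC.obj X ⟶ T) (g : Cone.obj X ⟶ T)
    (h : din X ≫ f = cin X ≫ g) : tt X ≫ tDesc f g h = g :=
  (isPushout_in₀₁ X).inr_desc _ _ _

/-- collapse the third cone -/
noncomputable def rr (X : C) : TC X ⟶ VV.obj X :=
  tDesc (dpr X) 0 (by rw [din_dpr, comp_zero])

@[reassoc (attr := simp)]
theorem in₀₁_rr (X : C) : in₀₁ X ≫ rr X = dpr X := in₀₁_tDesc _ _ _
@[reassoc (attr := simp)]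
theorem tt_rr (X : C) : tt X ≫ rr X = 0 := tt_tDesc _ _ _

@[reassoc]
theorem in₀₂_rr (X : C) : in₀₂ X ≫ rr X = q₀ X ≫ e₀ X := by
  apply dc_hom_ext <;> simp

@[reassoc]
theorem in₁₂_rr (X : C) : in₁₂ X ≫ rr X = q₀ X ≫ e₁ X := by
  apply dc_hom_ext <;> simp

/-- `rr` collapses the (weakly contractible, cofibrant) third cone. -/
theorem isPushout_rr (X : C) :
    IsPushout (tt X) (0 : Cone.obj X ⟶ (0 : C)) (rr X) (0 : (0 : C) ⟶ VV.obj X) := by
  have h : IsPushout (din X) (cin X ≫ (0 : Cone.obj X ⟶ (0 : C))) (in₀₁ X ≫ rr X)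
      (0 : (0 : C) ⟶ VV.obj X) := by
    rw [in₀₁_rr, comp_zero]
    exact isPushout_dpr X
  exact (IsPushout.of_left h.flip (by simp) (isPushout_in₀₁ X).flip).flip

/-- The projection of the triple cone onto `VV A ⨿ Susp A`. -/
noncomputable def t₃ (X : C) : TC X ⟶ VV.obj X ⨿ Susp.obj X :=
  tDesc (dpr X ≫ coprod.inl) (cpr X ≫ coprod.inr) (by
    rw [din_dpr_assoc, zero_comp, cin_cpr_assoc, zero_comp])

@[reassoc (attr := simp)]
theorem in₀₁_t₃ (X : C) : in₀₁ X ≫ t₃ X = dpr X ≫ coprod.inl := in₀₁_tDesc _ _ _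
@[reassoc (attr := simp)]
theorem tt_t₃ (X : C) : tt X ≫ t₃ X = cpr X ≫ coprod.inr := tt_tDesc _ _ _

@[reassoc]
theorem in₀₂_t₃ (X : C) :
    in₀₂ X ≫ t₃ X = dpr X ≫ vDesc (e₀ X ≫ coprod.inl) coprod.inr := by
  apply dc_hom_ext <;> simp

@[reassoc]
theorem in₁₂_t₃ (X : C) :
    in₁₂ X ≫ t₃ X = dpr X ≫ vDesc (e₁ X ≫ coprod.inl) coprod.inr := by
  apply dc_hom_ext <;> simp

end CofCat

end Vale.Agent.P251.H
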