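import Vale.Agent.P251.H.Cof.Strict
import Vale.Agent.P251.H.Cof.Star
import Vale.Agent.P251.H.MonLoc.Exact
import Mathlib.CategoryTheory.Triangulated.Triangulated

/-!
# P251, part H: distinguished triangles in the localization of a cofibration category

`dist τ`: the triangles isomorphic to `L A ⟶ L B ⟶ L Q ⟶ (L A)⟦1⟧` for `A ⟶ B` a cofibration with
quotient `Q` and `L Q ⟶ (L A)⟦1⟧` the connecting morphism (`IsConn`).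
-/

open CategoryTheory Limits Category Pretriangulated ZeroObject

universe w v u v' u'

namespace Vale.Agent.P251.H

open CofCat

variable {C : Type u} [Category.{v} C] [HasZeroObject C] [HasZeroMorphisms C]
  [HasBinaryCoproducts C] [CofCat C]

section

variable {D : Type u'} [Category.{v'} D] {L : C ⥤ D} [L.IsLocalization (CofCat.W (C := C))]
  {Sh : D ⥤ D} {τ : Susp ⋙ L ≅ L ⋙ Sh}

/-- naturality of the connecting morphism with respect to strict squares -/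
lemma IsConn.naturality {A₁ B₁ Q₁ A₂ B₂ Q₂ : C} {j₁ : A₁ ⟶ B₁} {q₁ : B₁ ⟶ Q₁}
    {δ₁ : L.obj Q₁ ⟶ Sh.obj (L.obj A₁)} (h₁ : IsConn τ j₁ q₁ δ₁)
    {j₂ : A₂ ⟶ B₂} {q₂ : B₂ ⟶ Q₂} {δ₂ : L.obj Q₂ ⟶ Sh.obj (L.obj A₂)} (h₂ : IsConn τ j₂ q₂ δ₂)
    {a : A₁ ⟶ A₂} {b : B₁ ⟶ B₂} {c : Q₁ ⟶ Q₂} (w₁ : j₁ ≫ b = a ≫ j₂) (w₂ : q₁ ≫ c = b ≫ q₂) :
    δ₁ ≫ Sh.map (L.map a) = L.map c ≫ δ₂ := by
  obtain ⟨P₁, u₁, v₁, r₁, d₁, hP₁, h11, h12, h13, h14, h15⟩ := h₁.exists_conn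
  obtain ⟨P₂, u₂, v₂, r₂, d₂, hP₂, h21, h22, h23, h24, h25⟩ := h₂.exists_conn
  have := isIso_map L (W_collapse h₁.cof h₁.isPushout hP₁ h11 h12)
  let p : P₁ ⟶ P₂ := hP₁.desc (b ≫ u₂) (Cone.map a ≫ v₂) (by
    rw [reassoc_of% w₁, hP₂.w, cin_naturality_assoc])
  have hp₁ : u₁ ≫ p = b ≫ u₂ := hP₁.inl_desc _ _ _
  have hp₂ : v₁ ≫ p = Cone.map a ≫ v₂ := hP₁.inr_desc _ _ _
  have e₁ : p ≫ r₂ = r₁ ≫ c := by
    apply hP₁.hom_ext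
    · rw [reassoc_of% hp₁, h21, ← w₂, reassoc_of% h11]
    · rw [reassoc_of% hp₂, h22, comp_zero, reassoc_of% h12, zero_comp]
  have e₂ : p ≫ d₂ = d₁ ≫ Susp.map a := by
    apply hP₁.hom_ext
    · rw [reassoc_of% hp₁, h23, comp_zero, reassoc_of% h13, zero_comp]
    · rw [reassoc_of% hp₂, h24, reassoc_of% h14, cpr_naturality]
  have hn : L.map (Susp.map a) ≫ τ.hom.app A₂ = τ.hom.app A₁ ≫ Sh.map (L.map a) :=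
    τ.hom.naturality a
  rw [← cancel_epi (L.map r₁), reassoc_of% h15, ← hn, ← L.map_comp_assoc, ← e₂, L.map_comp,
    Category.assoc, ← h25, ← L.map_comp_assoc, e₁, L.map_comp, Category.assoc]

/-- TR3 for connecting morphisms -/
lemma IsConn.exists_hom {A₁ B₁ Q₁ A₂ B₂ Q₂ : C} {j₁ : A₁ ⟶ B₁} {q₁ : B₁ ⟶ Q₁}
    {δ₁ : L.obj Q₁ ⟶ Sh.obj (L.obj A₁)} (h₁ : IsConn τ j₁ q₁ δ₁)
    {j₂ : A₂ ⟶ B₂} {q₂ : B₂ ⟶ Q₂} {δ₂ : L.obj Q₂ ⟶ Sh.obj (L.obj A₂)} (h₂ : IsConn τ j₂ q₂ δ₂)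
    (a : L.obj A₁ ⟶ L.obj A₂) (b : L.obj B₁ ⟶ L.obj B₂) (w : L.map j₁ ≫ b = a ≫ L.map j₂) :
    ∃ c : L.obj Q₁ ⟶ L.obj Q₂, L.map q₁ ≫ c = b ≫ L.map q₂ ∧ δ₁ ≫ Sh.map a = c ≫ δ₂ := by
  obtain ⟨A₂', B₂', s, t, j₂', a₀, b₀, hs, ht, hj₂', hst, hab, ha, hb⟩ :=
    exists_strict_square L h₁.cof j₂ a b w
  have hj₂ := hj₂' h₂.cof
  obtain ⟨Q₂', q₂', z, hQ₂'⟩ := exists_pushout j₂' (0 : A₂' ⟶ (0 : C)) hj₂
  obtain rfl : z = 0 := (isZero_zero C).eq_of_src _ _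
  obtain ⟨δ₂', h₂'⟩ := exists_isConn τ hj₂ hQ₂'
  have hjq₁ : j₁ ≫ q₁ = 0 := by rw [h₁.isPushout.w]; simp
  have hjq₂' : j₂' ≫ q₂' = 0 := by rw [h₂'.isPushout.w]; simp
  let c₀ : Q₁ ⟶ Q₂' := h₁.isPushout.desc (b₀ ≫ q₂') 0 (by
    rw [reassoc_of% hab, hjq₂']; simp)
  have hc₀ : q₁ ≫ c₀ = b₀ ≫ q₂' := h₁.isPushout.inl_desc _ _ _
  let u : Q₂ ⟶ Q₂' := h₂.isPushout.desc (t ≫ q₂') 0 (by
    rw [reassoc_of% hst, hjq₂']; simp)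
  have hu : q₂ ≫ u = t ≫ q₂' := h₂.isPushout.inl_desc _ _ _
  have hu' : W u := by
    refine gluing h₂.isPushout h₂'.isPushout h₂.cof hj₂ hs.w ht.w (W_id (0 : C)) hst ?_ u hu ?_
    · simp
    · simp
  have := isIso_map L hu'
  have := isIso_map L hs.w
  have n₁ := h₁.naturality h₂' hab hc₀
  have n₂ := h₂.naturality h₂' hst hu
  refine ⟨L.map c₀ ≫ inv (L.map u), ?_, ?_⟩
  · rw [← cancel_mono (L.map u)]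
    simp only [Category.assoc, IsIso.inv_hom_id, Category.comp_id]
    rw [← L.map_comp, ← L.map_comp, hc₀, hu, L.map_comp, L.map_comp, ← hb, Category.assoc]
  · rw [← cancel_mono (Sh.map (L.map s)), Category.assoc, ← Sh.map_comp, ha, n₁,
      Category.assoc, Category.assoc, n₂, IsIso.inv_hom_id_assoc]

/-- The rotated cofibre sequence `B ⟶ P ⟶ Susp A`, `P = B ∪_A Cone A`, and its connecting
morphism. -/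
lemma IsConn.exists_rotate {A B Q : C} {j : A ⟶ B} {q : B ⟶ Q}
    {δ : L.obj Q ⟶ Sh.obj (L.obj A)} (h : IsConn τ j q δ) :
    ∃ (P : C) (a : B ⟶ P) (r : P ⟶ Q) (d : P ⟶ Susp.obj A)
      (δ' : L.obj (Susp.obj A) ⟶ Sh.obj (L.obj B)), W r ∧ a ≫ r = q ∧
      L.map r ≫ δ = L.map d ≫ τ.hom.app A ∧ IsConn τ a d δ' ∧
      L.map (CofCat.q₀ A) ≫ δ' = L.map (CofCat.q₁ A) ≫ τ.hom.app A ≫ Sh.map (L.map j) := by
  obtain ⟨P, a, b, r, d, hP, h1, h2, h3, h4, h5⟩ := h.exists_conn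
  have hr := W_collapse h.cof h.isPushout hP h1 h2
  have ha : Cof a := Cof_pushout hP.flip (cof_cin A)
  have hd : IsPushout a (0 : B ⟶ (0 : C)) d (0 : (0 : C) ⟶ Susp.obj A) := by
    have h' : IsPushout (cin A) (j ≫ (0 : B ⟶ (0 : C))) (b ≫ d)
        (0 : (0 : C) ⟶ Susp.obj A) := by
      rw [h4, comp_zero]
      exact isPushout_cpr A
    exact (IsPushout.of_left h'.flip (by rw [h3]; simp) hP).flip
  obtain ⟨δ', hδ'⟩ := exists_isConn τ ha hd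
  refine ⟨P, a, r, d, δ', hr, h1, h5, hδ', ?_⟩
  obtain ⟨P', k, b', r', d', hP', h1', h2', h3', h4', h5'⟩ := hδ'.exists_conn
  let ψ : DC.obj A ⟶ P' := dDesc (b ≫ k) (Cone.map j ≫ b') (by
    rw [← cin_naturality_assoc, ← hP'.w, reassoc_of% hP.w])
  have e₁ : ψ ≫ r' = CofCat.q₀ A := by
    apply dc_hom_ext
    · rw [dl_dDesc_assoc, Category.assoc, h1', h4, dl_q₀]
    · rw [dr_dDesc_assoc, Category.assoc, h2', dr_q₀, comp_zero]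
  have e₂ : ψ ≫ d' = CofCat.q₁ A ≫ Susp.map j := by
    apply dc_hom_ext
    · rw [dl_dDesc_assoc, Category.assoc, h3', dl_q₁_assoc, comp_zero, zero_comp]
    · rw [dr_dDesc_assoc, Category.assoc, h4', dr_q₁_assoc, cpr_naturality]
  have hn : L.map (Susp.map j) ≫ τ.hom.app B = τ.hom.app A ≫ Sh.map (L.map j) :=
    τ.hom.naturality j
  rw [← e₁, L.map_comp, Category.assoc, h5', ← L.map_comp_assoc, e₂, L.map_comp,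
    Category.assoc, hn]

end

section

variable {D : Type u'} [Category.{v'} D] {L : C ⥤ D} [HasShift D ℤ]
  (τ : Susp ⋙ L ≅ L ⋙ shiftFunctor D (1 : ℤ))

/-- The distinguished triangles: those isomorphic to the image of a cofibre sequence with its
connecting morphism. -/
def dist : Set (Triangle D) := fun T =>
  ∃ (A B Q : C) (j : A ⟶ B) (q : B ⟶ Q) (δ : L.obj Q ⟶ (L.obj A)⟦(1 : ℤ)⟧),
    IsConn τ j q δ ∧ Nonempty (T ≅ Triangle.mk (L.map j) (L.map q) δ)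

variable {τ}

lemma IsConn.mem_dist {A B Q : C} {j : A ⟶ B} {q : B ⟶ Q} {δ : L.obj Q ⟶ (L.obj A)⟦(1 : ℤ)⟧}
    (h : IsConn τ j q δ) : Triangle.mk (L.map j) (L.map q) δ ∈ dist τ :=
  ⟨A, B, Q, j, q, δ, h, ⟨Iso.refl _⟩⟩

lemma dist_of_iso {T₁ T₂ : Triangle D} (h : T₁ ∈ dist τ) (e : T₂ ≅ T₁) : T₂ ∈ dist τ := by
  obtain ⟨A, B, Q, j, q, δ, h, ⟨e'⟩⟩ := h
  exact ⟨A, B, Q, j, q, δ, h, ⟨e ≪≫ e'⟩⟩

lemma exists_of_dist {T : Triangle D} (h : T ∈ dist τ) :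
    ∃ (A B Q : C) (j : A ⟶ B) (q : B ⟶ Q) (δ : L.obj Q ⟶ (L.obj A)⟦(1 : ℤ)⟧)
      (x : T.obj₁ ≅ L.obj A) (y : T.obj₂ ≅ L.obj B) (z : T.obj₃ ≅ L.obj Q), IsConn τ j q δ ∧
      T.mor₁ ≫ y.hom = x.hom ≫ L.map j ∧ T.mor₂ ≫ z.hom = y.hom ≫ L.map q ∧
      T.mor₃ ≫ x.hom⟦(1 : ℤ)⟧' = z.hom ≫ δ := by
  obtain ⟨A, B, Q, j, q, δ, h, ⟨e⟩⟩ := h
  exact ⟨A, B, Q, j, q, δ, Triangle.π₁.mapIso e, Triangle.π₂.mapIso e, Triangle.π₃.mapIso e, h,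
    e.hom.comm₁, e.hom.comm₂, e.hom.comm₃⟩

lemma dist_of_exists {T : Triangle D} {A B Q : C} {j : A ⟶ B} {q : B ⟶ Q}
    {δ : L.obj Q ⟶ (L.obj A)⟦(1 : ℤ)⟧} (h : IsConn τ j q δ)
    (x : T.obj₁ ≅ L.obj A) (y : T.obj₂ ≅ L.obj B) (z : T.obj₃ ≅ L.obj Q)
    (h₁ : T.mor₁ ≫ y.hom = x.hom ≫ L.map j) (h₂ : T.mor₂ ≫ z.hom = y.hom ≫ L.map q)
    (h₃ : T.mor₃ ≫ x.hom⟦(1 : ℤ)⟧' = z.hom ≫ δ) : T ∈ dist τ :=
  ⟨A, B, Q, j, q, δ, h, ⟨Triangle.isoMk _ _ x y z h₁ h₂ h₃⟩⟩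

variable [L.IsLocalization (CofCat.W (C := C))]

variable (τ) in
lemma dist_contractible [HasZeroObject D] [HasZeroMorphisms D] (X : D) :
    contractibleTriangle X ∈ dist τ := by
  have := Localization.essSurj L (CofCat.W (C := C))
  let A := L.objPreimage X
  have hA : IsPushout (𝟙 A) (0 : A ⟶ (0 : C)) (0 : A ⟶ (0 : C)) (0 : (0 : C) ⟶ (0 : C)) := by
    have : IsIso (0 : (0 : C) ⟶ (0 : C)) :=
      ⟨0, (isZero_zero C).eq_of_src _ _, (isZero_zero C).eq_of_src _ _⟩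
    exact IsPushout.of_horiz_isIso ⟨by simp⟩
  obtain ⟨δ, hδ⟩ := exists_isConn τ (Cof_id A) hA
  have h0 : IsZero (L.obj (0 : C)) := isZero_map L (isZero_zero C)
  have h0' : IsZero (0 : D) := isZero_zero D
  refine dist_of_iso hδ.mem_dist (Triangle.isoMk _ _ (L.objObjPreimageIso X).symm
    (L.objObjPreimageIso X).symm (h0'.iso h0) ?_ ?_ ?_)
  · change 𝟙 X ≫ (L.objObjPreimageIso X).inv = (L.objObjPreimageIso X).inv ≫ L.map (𝟙 A)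
    rw [L.map_id]
    exact (Category.id_comp _).trans (Category.comp_id _).symm
  · exact h0.eq_of_tgt _ _
  · exact h0'.eq_of_src _ _

variable (τ) in
lemma dist_zero_id [HasZeroObject D] [HasZeroMorphisms D] (X : D) :
    Triangle.mk (0 : (0 : D) ⟶ X) (𝟙 X) 0 ∈ dist τ := by
  have := Localization.essSurj L (CofCat.W (C := C))
  let A := L.objPreimage X
  have hA : IsPushout (0 : (0 : C) ⟶ A) (0 : (0 : C) ⟶ (0 : C)) (𝟙 A) (0 : (0 : C) ⟶ A) := by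
    have : IsIso (0 : (0 : C) ⟶ (0 : C)) :=
      ⟨0, (isZero_zero C).eq_of_src _ _, (isZero_zero C).eq_of_src _ _⟩
    exact IsPushout.of_vert_isIso ⟨by simp⟩
  obtain ⟨δ, hδ⟩ := exists_isConn τ (Cof_zero (isZero_zero C) _) hA
  have h0 : IsZero (L.obj (0 : C)) := isZero_map L (isZero_zero C)
  have h0' : IsZero (0 : D) := isZero_zero D
  have h0'' : IsZero ((L.obj (0 : C))⟦(1 : ℤ)⟧) := (shiftFunctor D (1 : ℤ)).map_isZero h0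
  refine dist_of_iso hδ.mem_dist (Triangle.isoMk _ _ (h0'.iso h0) (L.objObjPreimageIso X).symm
    (L.objObjPreimageIso X).symm ?_ ?_ ?_)
  · exact h0'.eq_of_src _ _
  · change 𝟙 X ≫ (L.objObjPreimageIso X).inv = (L.objObjPreimageIso X).inv ≫ L.map (𝟙 A)
    rw [L.map_id]
    exact (Category.id_comp _).trans (Category.comp_id _).symm
  · exact h0''.eq_of_tgt _ _

variable (τ) in
lemma dist_cocone {X Y : D} (f : X ⟶ Y) :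
    ∃ (Z : D) (g : Y ⟶ Z) (h : Z ⟶ X⟦(1 : ℤ)⟧), Triangle.mk f g h ∈ dist τ := by
  have := Localization.essSurj L (CofCat.W (C := C))
  let eX := L.objObjPreimageIso X
  let eY := L.objObjPreimageIso Y
  obtain ⟨B, j, s, hj, hs, hφ⟩ := exists_cof_fraction L (eX.hom ≫ f ≫ eY.inv)
  obtain ⟨Q, q, z, hQ⟩ := exists_pushout j (0 : L.objPreimage X ⟶ (0 : C)) hj
  obtain rfl : z = 0 := (isZero_zero C).eq_of_src _ _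
  obtain ⟨δ, hδ⟩ := exists_isConn τ hj hQ
  have := isIso_map L hs.w
  refine ⟨L.obj Q, eY.inv ≫ L.map s ≫ L.map q, δ ≫ (eX.hom)⟦(1 : ℤ)⟧', ?_⟩
  have e₁ : f ≫ eY.inv ≫ L.map s = eX.inv ≫ L.map j := by
    rw [← hφ]
    simp
  refine dist_of_exists hδ eX.symm (eY.symm ≪≫ (@asIso _ _ _ _ (L.map s) this))
    (Iso.refl _) e₁ ?_ ?_
  · change (eY.inv ≫ L.map s ≫ L.map q) ≫ 𝟙 _ = (eY.inv ≫ L.map s) ≫ L.map q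
    simp
  · change (δ ≫ (eX.hom)⟦(1 : ℤ)⟧') ≫ (eX.inv)⟦(1 : ℤ)⟧' = 𝟙 _ ≫ δ
    rw [Category.assoc, ← Functor.map_comp, Iso.hom_inv_id, Category.id_comp]
    exact (congrArg _ (CategoryTheory.Functor.map_id _ _)).trans (Category.comp_id _)

lemma dist_complete (T₁ T₂ : Triangle D) (h₁ : T₁ ∈ dist τ) (h₂ : T₂ ∈ dist τ)
    (a : T₁.obj₁ ⟶ T₂.obj₁) (b : T₁.obj₂ ⟶ T₂.obj₂) (w : T₁.mor₁ ≫ b = a ≫ T₂.mor₁) :
    ∃ c : T₁.obj₃ ⟶ T₂.obj₃, T₁.mor₂ ≫ c = b ≫ T₂.mor₂ ∧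
      T₁.mor₃ ≫ a⟦(1 : ℤ)⟧' = c ≫ T₂.mor₃ := by
  obtain ⟨A₁, B₁, Q₁, j₁, q₁, δ₁, x₁, y₁, z₁, h₁, k₁, k₂, k₃⟩ := exists_of_dist h₁
  obtain ⟨A₂, B₂, Q₂, j₂, q₂, δ₂, x₂, y₂, z₂, h₂, l₁, l₂, l₃⟩ := exists_of_dist h₂
  obtain ⟨c, hc₁, hc₂⟩ := h₁.exists_hom h₂ (x₁.inv ≫ a ≫ x₂.hom) (y₁.inv ≫ b ≫ y₂.hom) (by
      simp only [Category.assoc]
      rw [← l₁, ← reassoc_of% w, Iso.eq_inv_comp, ← reassoc_of% k₁, Iso.hom_inv_id_assoc])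
  refine ⟨z₁.hom ≫ c ≫ z₂.inv, ?_, ?_⟩
  · rw [reassoc_of% k₂, reassoc_of% hc₁, ← reassoc_of% l₂, Iso.hom_inv_id, Category.comp_id,
      Iso.hom_inv_id_assoc]
  · have l₃' : z₂.inv ≫ T₂.mor₃ = δ₂ ≫ x₂.inv⟦(1 : ℤ)⟧' := by
      rw [Iso.inv_comp_eq, ← reassoc_of% l₃, ← Functor.map_comp, Iso.hom_inv_id,
        CategoryTheory.Functor.map_id, Category.comp_id]
    rw [Category.assoc, Category.assoc, l₃', ← reassoc_of% hc₂, ← Functor.map_comp,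
      ← reassoc_of% k₃, ← Functor.map_comp]
    simp

lemma dist_rotate [Preadditive D]
    (hq : ∀ A : C, L.map (CofCat.q₁ A) = - L.map (CofCat.q₀ A)) (T : Triangle D)
    (hT : T ∈ dist τ) : T.rotate ∈ dist τ := by
  obtain ⟨A, B, Q, j, q, δ, h, ⟨e⟩⟩ := hT
  have e' : T.rotate ≅ (Triangle.mk (L.map j) (L.map q) δ).rotate := (rotate D).mapIso e
  obtain ⟨P, a, r, d, δ', hr, har, hrd, hδ', hs⟩ := h.exists_rotate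
  have := isIso_map L hr
  have hq₀ : W (CofCat.q₀ A) := collapse (cof_dr A) (W_cone_zero A) (isPushout_q₀ A)
  have := isIso_map L hq₀
  have hδ'' : δ' = - (τ.hom.app A ≫ (L.map j)⟦(1 : ℤ)⟧') := by
    rw [← cancel_epi (L.map (CofCat.q₀ A)), hs, hq, Preadditive.neg_comp, Preadditive.comp_neg]
  refine dist_of_iso hδ'.mem_dist (e' ≪≫ Triangle.isoMk _ _ (Iso.refl _)
    (asIso (L.map r)).symm (τ.app A).symm ?_ ?_ ?_)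
  · change L.map q ≫ inv (L.map r) = 𝟙 _ ≫ L.map a
    rw [← har, L.map_comp, Category.assoc, IsIso.hom_inv_id, Category.comp_id, Category.id_comp]
  · change δ ≫ τ.inv.app A = inv (L.map r) ≫ L.map d
    rw [← cancel_epi (L.map r), reassoc_of% hrd, IsIso.hom_inv_id_assoc, Iso.hom_inv_id_app]
    exact Category.comp_id _
  · change (-(L.map j)⟦(1 : ℤ)⟧') ≫ (𝟙 (L.obj B))⟦(1 : ℤ)⟧' = τ.inv.app A ≫ δ'
    rw [hδ'', CategoryTheory.Functor.map_id, Category.comp_id, Preadditive.comp_neg,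
      Iso.inv_hom_id_app_assoc]

/-- The octahedron of a composable pair of cofibrations. -/
lemma exists_octahedron_aux {X₁' X₂' X₃' : D} (u₁₂' : X₁' ⟶ X₂') (u₂₃' : X₂' ⟶ X₃') :
    ∃ (X₁ X₂ X₃ Z₁₂ Z₂₃ Z₁₃ : D) (u₁₂ : X₁ ⟶ X₂) (u₂₃ : X₂ ⟶ X₃) (e₁ : X₁' ≅ X₁)
      (e₂ : X₂' ≅ X₂) (e₃ : X₃' ≅ X₃) (_ : u₁₂' ≫ e₂.hom = e₁.hom ≫ u₁₂)
      (_ : u₂₃' ≫ e₃.hom = e₂.hom ≫ u₂₃)
      (v₁₂ : X₂ ⟶ Z₁₂) (w₁₂ : Z₁₂ ⟶ X₁⟦(1 : ℤ)⟧) (_ : Triangle.mk u₁₂ v₁₂ w₁₂ ∈ dist τ)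
      (v₂₃ : X₃ ⟶ Z₂₃) (w₂₃ : Z₂₃ ⟶ X₂⟦(1 : ℤ)⟧) (_ : Triangle.mk u₂₃ v₂₃ w₂₃ ∈ dist τ)
      (v₁₃ : X₃ ⟶ Z₁₃) (w₁₃ : Z₁₃ ⟶ X₁⟦(1 : ℤ)⟧)
      (_ : Triangle.mk (u₁₂ ≫ u₂₃) v₁₃ w₁₃ ∈ dist τ) (m₁ : Z₁₂ ⟶ Z₁₃) (m₃ : Z₁₃ ⟶ Z₂₃),
      v₁₂ ≫ m₁ = u₂₃ ≫ v₁₃ ∧ m₁ ≫ w₁₃ = w₁₂ ∧ v₁₃ ≫ m₃ = v₂₃ ∧
      w₁₃ ≫ u₁₂⟦(1 : ℤ)⟧' = m₃ ≫ w₂₃ ∧
      Triangle.mk m₁ m₃ (w₂₃ ≫ v₁₂⟦(1 : ℤ)⟧') ∈ dist τ := by
  have := Localization.essSurj L (CofCat.W (C := C))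
  let e₁ := L.objObjPreimageIso X₁'
  let e₂ := L.objObjPreimageIso X₂'
  let e₃ := L.objObjPreimageIso X₃'
  obtain ⟨X₂, X₃, f, g, s, t, hf, hg, hs, ht, hfs, hgt⟩ := exists_strict_pair L
    (e₁.hom ≫ u₁₂' ≫ e₂.inv) (e₂.hom ≫ u₂₃' ≫ e₃.inv)
  have hs' := isIso_map L hs.w
  have ht' := isIso_map L ht.w
  obtain ⟨Q₁₂, v₁₂, z, h₁₂⟩ := exists_pushout f (0 : L.objPreimage X₁' ⟶ (0 : C)) hf
  obtain rfl : z = 0 := (isZero_zero C).eq_of_src _ _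
  obtain ⟨Q₂₃, v₂₃, z, h₂₃⟩ := exists_pushout g (0 : X₂ ⟶ (0 : C)) hg
  obtain rfl : z = 0 := (isZero_zero C).eq_of_src _ _
  obtain ⟨Q₁₃, v₁₃, m₁, h₁₃'⟩ := exists_pushout g v₁₂ hg
  -- `Q₁₃` is the quotient of `f ≫ g`
  have h₁₃ : IsPushout (f ≫ g) (0 : L.objPreimage X₁' ⟶ (0 : C)) v₁₃ (0 : (0 : C) ⟶ Q₁₃) := by
    have h := h₁₂.paste_horiz h₁₃'
    rwa [zero_comp] at h
  have hgv : g ≫ v₂₃ = 0 := by rw [h₂₃.w]; simp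
  let m₃ : Q₁₃ ⟶ Q₂₃ := h₁₃'.desc v₂₃ 0 (by rw [hgv, comp_zero])
  have hm₃ : v₁₃ ≫ m₃ = v₂₃ := h₁₃'.inl_desc _ _ _
  have hm₃' : m₁ ≫ m₃ = 0 := h₁₃'.inr_desc _ _ _
  have hm₁ : Cof m₁ := Cof_pushout h₁₃' hg
  have hm : IsPushout m₁ (0 : Q₁₂ ⟶ (0 : C)) m₃ (0 : (0 : C) ⟶ Q₂₃) := by
    refine IsPushout.of_top ?_ (by rw [hm₃', comp_zero]) h₁₃'
    rw [hm₃, comp_zero]
    exact h₂₃
  obtain ⟨δ₁₂, c₁₂⟩ := exists_isConn τ hf h₁₂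
  obtain ⟨δ₂₃, c₂₃⟩ := exists_isConn τ hg h₂₃
  obtain ⟨δ₁₃, c₁₃⟩ := exists_isConn τ (Cof_comp _ _ hf hg) h₁₃
  obtain ⟨δm, cm⟩ := exists_isConn τ hm₁ hm
  have n₁ := c₁₂.naturality c₁₃ (a := 𝟙 _) (b := g) (c := m₁) (by simp) h₁₃'.w.symm
  have n₂ := c₁₃.naturality c₂₃ (a := f) (b := 𝟙 _) (c := m₃) (by simp) (by rw [hm₃]; simp)
  have n₃ := c₂₃.naturality cm (a := v₁₂) (b := v₁₃) (c := 𝟙 _) h₁₃'.w (by rw [hm₃]; simp)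
  rw [L.map_id, CategoryTheory.Functor.map_id, Category.comp_id] at n₁
  rw [L.map_id, Category.id_comp] at n₃
  refine ⟨_, _, _, _, _, _, L.map f, L.map g, e₁.symm, e₂.symm ≪≫ (@asIso _ _ _ _ (L.map s) hs'),
    e₃.symm ≪≫ (@asIso _ _ _ _ (L.map t) ht'), ?_, ?_, L.map v₁₂, δ₁₂, c₁₂.mem_dist,
    L.map v₂₃, δ₂₃, c₂₃.mem_dist, L.map v₁₃, δ₁₃, ?_, L.map m₁, L.map m₃, ?_, n₁.symm, ?_, n₂, ?_⟩
  · change u₁₂' ≫ e₂.inv ≫ L.map s = e₁.inv ≫ L.map f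
    rw [← hfs]
    simp
  · change u₂₃' ≫ e₃.inv ≫ L.map t = (e₂.inv ≫ L.map s) ≫ L.map g
    rw [Category.assoc, ← hgt]
    simp
  · rw [← L.map_comp]
    exact c₁₃.mem_dist
  · rw [← L.map_comp, ← L.map_comp, h₁₃'.w]
  · rw [← L.map_comp, hm₃]
  · rw [n₃]
    exact cm.mem_dist

end

end Vale.Agent.P251.H
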