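import Vale.Agent.P251.H.Cof.Ward

/-!
# P251, part H: transport of co-divisions

`CoDivOn E` : a natural co-division on the values of a functor `E : K ⥤ D`. It is transported along
isomorphisms of functors, descended along localization functors, and it gives a natural co-division
on all of `D` if `E` is an equivalence.
-/

open CategoryTheory Limits

universe v u v' u' v'' u''

namespace Vale.Agent.P251.H

variable {K : Type u'} [Category.{v'} K]
variable {D : Type u} [Category.{v} D] [HasZeroMorphisms D] [HasBinaryCoproducts D]

/-- A natural co-division on the values of a functor. -/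
structure CoDivOn (E : K ⥤ D) where
  /-- the co-division -/
  c (X : K) : E.obj X ⟶ E.obj X ⨿ E.obj X
  naturality {X Y : K} (f : X ⟶ Y) : E.map f ≫ c Y = c X ≫ coprod.map (E.map f) (E.map f)
  isCoDiv (X : K) : IsCoDiv (c X)

namespace CoDivOn

/-- Transport along an isomorphism of functors. -/
noncomputable def ofIso {E E' : K ⥤ D} (s : CoDivOn E) (i : E ≅ E') : CoDivOn E' where
  c X := i.inv.app X ≫ s.c X ≫ coprod.map (i.hom.app X) (i.hom.app X)
  naturality {X Y} f := by
    rw [i.inv.naturality_assoc, ← Category.assoc (E.map f), s.naturality]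
    simp only [Category.assoc, coprod.map_map, i.hom.naturality]
  isCoDiv X := (s.isCoDiv X).ofIso (i.app X)

theorem ofIso_c {E E' : K ⥤ D} (s : CoDivOn E) (i : E ≅ E') (X : K) :
    (s.ofIso i).c X = i.inv.app X ≫ s.c X ≫ coprod.map (i.hom.app X) (i.hom.app X) := rfl

/-- The functor `X ↦ X ⨿ X`. -/
@[simps]
noncomputable def dbl : D ⥤ D where
  obj X := X ⨿ X
  map f := coprod.map f f
  map_id _ := coprod.map_id_id
  map_comp f g := (coprod.map_map f f g g).symm

section

variable {C : Type u''} [Category.{v''} C] (L : C ⥤ K) (W : MorphismProperty C)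
  [L.IsLocalization W] (E : K ⥤ D)

/-- the lifted natural transformation -/
noncomputable def liftNT (s : CoDivOn (L ⋙ E)) : E ⟶ E ⋙ dbl :=
  haveI := Localization.full_whiskeringLeft L W D
  ((Functor.whiskeringLeft C K D).obj L).preimage
    (show L ⋙ E ⟶ L ⋙ E ⋙ dbl from
      { app := fun X => s.c X
        naturality := fun _ _ f => s.naturality f })

/-- the components of the lifted natural transformation -/
noncomputable def liftC (s : CoDivOn (L ⋙ E)) (X : K) : E.obj X ⟶ E.obj X ⨿ E.obj X :=
  (liftNT L W E s).app X

theorem liftC_naturality (s : CoDivOn (L ⋙ E)) {X Y : K} (f : X ⟶ Y) :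
    E.map f ≫ liftC L W E s Y = liftC L W E s X ≫ coprod.map (E.map f) (E.map f) :=
  (liftNT L W E s).naturality f

theorem liftC_obj (s : CoDivOn (L ⋙ E)) (A : C) : liftC L W E s (L.obj A) = s.c A := by
  have := Localization.full_whiskeringLeft L W D
  have h := ((Functor.whiskeringLeft C K D).obj L).map_preimage
    (show L ⋙ E ⟶ L ⋙ E ⋙ dbl from
      { app := fun X => s.c X
        naturality := fun _ _ f => s.naturality f })
  exact congrArg (fun t => NatTrans.app t A) h

theorem isCoDiv_liftC (s : CoDivOn (L ⋙ E)) (X : K) : IsCoDiv (liftC L W E s X) := by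
  have := Localization.essSurj L W
  let i : L.obj (L.objPreimage X) ≅ X := L.objObjPreimageIso X
  have h := (s.isCoDiv (L.objPreimage X)).ofIso (E.mapIso i)
  have h' : liftC L W E s X =
      (E.mapIso i).inv ≫ s.c (L.objPreimage X) ≫
        coprod.map (E.mapIso i).hom (E.mapIso i).hom := by
    have n := liftC_naturality L W E s i.inv
    rw [liftC_obj] at n
    change _ = E.map i.inv ≫ s.c _ ≫ coprod.map (E.map i.hom) (E.map i.hom)
    rw [← Category.assoc, n, Category.assoc, coprod.map_map, ← E.map_comp, i.inv_hom_id,
      E.map_id, coprod.map_id_id, Category.comp_id]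
  rw [h']
  exact h

/-- Descent of a co-division along a localization functor. -/
noncomputable def descend (s : CoDivOn (L ⋙ E)) : CoDivOn E where
  c X := liftC L W E s X
  naturality f := liftC_naturality L W E s f
  isCoDiv X := isCoDiv_liftC L W E s X

theorem descend_c (s : CoDivOn (L ⋙ E)) (A : C) : (descend L W E s).c (L.obj A) = s.c A :=
  liftC_obj L W E s A

end

/-- The co-division on the whole category, if the functor is an equivalence. -/
noncomputable def toCoDiv {E : K ⥤ D} [E.IsEquivalence] (s : CoDivOn E) : CoDiv D where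
  c X := (E.objObjPreimageIso X).inv ≫ s.c (E.objPreimage X) ≫
    coprod.map (E.objObjPreimageIso X).hom (E.objObjPreimageIso X).hom
  naturality {X Y} f := by
    obtain ⟨g, hg⟩ := E.map_surjective
      ((E.objObjPreimageIso X).hom ≫ f ≫ (E.objObjPreimageIso Y).inv)
    have h := s.naturality g
    rw [hg] at h
    have h' := congrArg (fun t => (E.objObjPreimageIso X).inv ≫ t ≫
      coprod.map (E.objObjPreimageIso Y).hom (E.objObjPreimageIso Y).hom) h
    simpa using h'
  isCoDiv X := (s.isCoDiv _).ofIso _

theorem toCoDiv_c {E : K ⥤ D} [E.IsEquivalence] (s : CoDivOn E) (X : K) :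
    s.toCoDiv.c (E.obj X) = s.c X := by
  obtain ⟨g, hg⟩ := E.map_surjective (E.objObjPreimageIso (E.obj X)).hom
  have h := s.naturality g
  rw [hg] at h
  change (E.objObjPreimageIso (E.obj X)).inv ≫ s.c (E.objPreimage (E.obj X)) ≫
    coprod.map (E.objObjPreimageIso (E.obj X)).hom (E.objObjPreimageIso (E.obj X)).hom = _
  rw [← h, Iso.inv_hom_id_assoc]

end CoDivOn

end Vale.Agent.P251.H
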