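import Vale.Agent.P251.H.Cof.Star
import Vale.Agent.P251.H.Cof.Glue
import Vale.Agent.P251.H.Cof.AddT
import Mathlib.CategoryTheory.Limits.Preserves.Shapes.BinaryProducts
import Mathlib.CategoryTheory.Limits.Preserves.Shapes.Zero
import Mathlib.CategoryTheory.Preadditive.AdditiveFunctor
import Mathlib.CategoryTheory.Adjunction.Limits

/-!
# P251, part H: the preadditive structure on the localization of a stable cofibration category

`L : C ⥤ D` is a localization functor for the weak equivalences of a cofibration category which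
preserves binary coproducts and the zero object, and `E : D ⥤ D` is an equivalence with
`i : Susp ⋙ L ≅ L ⋙ E`. Then `D` is preadditive. On maps `f g : L (Susp A) ⟶ Y`
the difference is `f - g = (L q₀)⁻¹ ≫ L dpr ≫ [f, g]`.
-/

open CategoryTheory Limits ZeroObject

universe v u v' u'

set_option linter.unusedSectionVars false

namespace Vale.Agent.P251.H

namespace CofCat

variable {C : Type u} [Category.{v} C] [HasZeroObject C] [HasZeroMorphisms C]
  [HasBinaryCoproducts C] [CofCat C]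

theorem W_q₀ (A : C) : W (q₀ A) := collapse (cof_dr A) (W_cone_zero A) (isPushout_q₀ A)
theorem W_q₁ (A : C) : W (q₁ A) := collapse (cof_dl A) (W_cone_zero A) (isPushout_q₁ A)
theorem W_rr (A : C) : W (rr A) := collapse (cof_tt A) (W_cone_zero A) (isPushout_rr A)

variable {D : Type u'} [Category.{v'} D] [HasZeroMorphisms D] [HasBinaryCoproducts D]
  (L : C ⥤ D) [L.IsLocalization (W (C := C))] [L.PreservesZeroMorphisms]
  [PreservesColimitsOfShape (Discrete WalkingPair) L]

theorem isIso_q₀ (A : C) : IsIso (L.map (q₀ A)) := Localization.inverts L W _ (W_q₀ A)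
theorem isIso_q₁ (A : C) : IsIso (L.map (q₁ A)) := Localization.inverts L W _ (W_q₁ A)
theorem isIso_rr (A : C) : IsIso (L.map (rr A)) := Localization.inverts L W _ (W_rr A)

/-- Cones become zero objects. -/
theorem isZero_cone (A : C) : IsZero (L.obj (Cone.obj A)) := by
  have : IsIso (L.map (0 : Cone.obj A ⟶ (0 : C))) := Localization.inverts L W _ (W_cone_zero A)
  rw [IsZero.iff_id_eq_zero, ← IsIso.hom_inv_id (L.map (0 : Cone.obj A ⟶ (0 : C)))]
  generalize inv (L.map (0 : Cone.obj A ⟶ (0 : C))) = t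
  rw [L.map_zero, zero_comp]

/-- `L VV` is a coproduct. -/
noncomputable def isColimitLVV (A : C) :
    IsColimit (BinaryCofan.mk (L.map (e₀ A)) (L.map (e₁ A))) :=
  mapIsColimitOfPreservesOfIsColimit L _ _ (isColimitVV A)

/-- morphisms out of `L VV` -/
noncomputable def lDesc {A : C} {Y : D} (f g : L.obj (Susp.obj A) ⟶ Y) : L.obj (VV.obj A) ⟶ Y :=
  (isColimitLVV L A).desc (BinaryCofan.mk f g)

@[reassoc (attr := simp)]
theorem e₀_lDesc {A : C} {Y : D} (f g : L.obj (Susp.obj A) ⟶ Y) :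
    L.map (e₀ A) ≫ lDesc L f g = f :=
  (isColimitLVV L A).fac (BinaryCofan.mk f g) ⟨WalkingPair.left⟩

@[reassoc (attr := simp)]
theorem e₁_lDesc {A : C} {Y : D} (f g : L.obj (Susp.obj A) ⟶ Y) :
    L.map (e₁ A) ≫ lDesc L f g = g :=
  (isColimitLVV L A).fac (BinaryCofan.mk f g) ⟨WalkingPair.right⟩

theorem lvv_hom_ext {A : C} {Y : D} {f g : L.obj (VV.obj A) ⟶ Y}
    (h₀ : L.map (e₀ A) ≫ f = L.map (e₀ A) ≫ g) (h₁ : L.map (e₁ A) ≫ f = L.map (e₁ A) ≫ g) :
    f = g :=
  BinaryCofan.IsColimit.hom_ext (isColimitLVV L A) h₀ h₁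

theorem lDesc_comp {A : C} {Y Z : D} (f g : L.obj (Susp.obj A) ⟶ Y) (h : Y ⟶ Z) :
    lDesc L f g ≫ h = lDesc L (f ≫ h) (g ≫ h) := by
  apply lvv_hom_ext <;> simp

theorem map_vDesc {A T : C} (f g : Susp.obj A ⟶ T) :
    L.map (vDesc f g) = lDesc L (L.map f) (L.map g) := by
  apply lvv_hom_ext <;> simp [← Functor.map_comp]

/-- The co-division `L (Susp A) ⟶ L (Susp A) ⨿ L (Susp A)`. -/
noncomputable def codiv (A : C) : L.obj (Susp.obj A) ⟶ L.obj (Susp.obj A) ⨿ L.obj (Susp.obj A) :=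
  haveI := isIso_q₀ L A
  inv (L.map (q₀ A)) ≫ L.map (dpr A) ≫ lDesc L coprod.inl coprod.inr

theorem q₀_codiv_desc {A : C} {Y : D} (f g : L.obj (Susp.obj A) ⟶ Y) :
    L.map (q₀ A) ≫ codiv L A ≫ coprod.desc f g = L.map (dpr A) ≫ lDesc L f g := by
  have := isIso_q₀ L A
  rw [codiv, Category.assoc, Category.assoc, IsIso.hom_inv_id_assoc, lDesc_comp,
    coprod.inl_desc, coprod.inr_desc]

theorem codiv_desc_eq {A : C} {Y : D} {f g h : L.obj (Susp.obj A) ⟶ Y}
    (e : L.map (dpr A) ≫ lDesc L f g = L.map (q₀ A) ≫ h) : codiv L A ≫ coprod.desc f g = h := by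
  have := isIso_q₀ L A
  rw [← cancel_epi (L.map (q₀ A)), q₀_codiv_desc, e]

theorem codiv_naturality {A B : C} (f : A ⟶ B) :
    L.map (Susp.map f) ≫ codiv L B =
      codiv L A ≫ coprod.map (L.map (Susp.map f)) (L.map (Susp.map f)) := by
  have := isIso_q₀ L A
  have h1 : coprod.map (L.map (Susp.map f)) (L.map (Susp.map f)) =
      coprod.desc (L.map (Susp.map f) ≫ coprod.inl) (L.map (Susp.map f) ≫ coprod.inr) := by
    apply coprod.hom_ext
    · rw [coprod.inl_map, coprod.inl_desc]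
    · rw [coprod.inr_map, coprod.inr_desc]
  have h2 : codiv L B = codiv L B ≫ coprod.desc coprod.inl coprod.inr := by
    rw [coprod.desc_inl_inr, Category.comp_id]
  rw [← cancel_epi (L.map (q₀ A)), h1, q₀_codiv_desc, ← L.map_comp_assoc, ← q₀_naturality,
    L.map_comp_assoc, h2, q₀_codiv_desc, ← L.map_comp_assoc, dpr_naturality, L.map_comp_assoc]
  congr 1
  apply lvv_hom_ext
  · rw [e₀_lDesc, ← L.map_comp_assoc, ← e₀_naturality, L.map_comp_assoc, e₀_lDesc]
  · rw [e₁_lDesc, ← L.map_comp_assoc, ← e₁_naturality, L.map_comp_assoc, e₁_lDesc]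

theorem map_id_susp (A : C) : L.map (𝟙 (Susp.obj A)) = 𝟙 (L.obj (Susp.obj A)) := L.map_id _

theorem dpr_lDesc_id_zero (A : C) :
    L.map (dpr A) ≫ lDesc L (𝟙 _) 0 = L.map (q₀ A) := by
  rw [← dpr_left, L.map_comp, map_vDesc, L.map_id, L.map_zero]

theorem dpr_lDesc_zero_id (A : C) :
    L.map (dpr A) ≫ lDesc L 0 (𝟙 _) = L.map (q₁ A) := by
  rw [← dpr_right, L.map_comp, map_vDesc, L.map_id, L.map_zero]

theorem dpr_lDesc_id_id (A : C) :
    L.map (dpr A) ≫ lDesc L (𝟙 _) (𝟙 _) = 0 := by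
  have h := congrArg L.map (dpr_fold A)
  rw [L.map_comp, L.map_comp, map_vDesc, L.map_id, (isZero_cone L A).eq_of_tgt (L.map (fold A)) 0,
    zero_comp] at h
  exact h

/-- Ward's identity. -/
theorem codiv_ward {A : C} {Y : D} (a b d : L.obj (Susp.obj A) ⟶ Y) :
    codiv L A ≫ coprod.desc (codiv L A ≫ coprod.desc a d) (codiv L A ≫ coprod.desc b d) =
      codiv L A ≫ coprod.desc a b := by
  have := isIso_q₀ L A
  have := isIso_rr L A
  let hc := mapIsColimitOfPreservesOfIsColimit L _ _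
    (coprodIsCoprod (VV.obj A) (Susp.obj A))
  let φ' : L.obj (VV.obj A ⨿ Susp.obj A) ⟶ Y := hc.desc (BinaryCofan.mk (lDesc L a b) d)
  have hl : L.map (coprod.inl : VV.obj A ⟶ VV.obj A ⨿ Susp.obj A) ≫ φ' = lDesc L a b :=
    hc.fac (BinaryCofan.mk (lDesc L a b) d) ⟨WalkingPair.left⟩
  have hr : L.map (coprod.inr : Susp.obj A ⟶ VV.obj A ⨿ Susp.obj A) ≫ φ' = d :=
    hc.fac (BinaryCofan.mk (lDesc L a b) d) ⟨WalkingPair.right⟩
  let φ : L.obj (TC A) ⟶ Y := L.map (t₃ A) ≫ φ'
  have h01 : L.map (in₀₁ A) ≫ φ = L.map (dpr A) ≫ lDesc L a b := by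
    rw [← L.map_comp_assoc, in₀₁_t₃, L.map_comp_assoc, hl]
  have h02 : L.map (in₀₂ A) ≫ φ = L.map (dpr A) ≫ lDesc L a d := by
    rw [← L.map_comp_assoc, in₀₂_t₃, L.map_comp_assoc, map_vDesc, lDesc_comp, hr,
      L.map_comp_assoc, hl, e₀_lDesc]
  have h12 : L.map (in₁₂ A) ≫ φ = L.map (dpr A) ≫ lDesc L b d := by
    rw [← L.map_comp_assoc, in₁₂_t₃, L.map_comp_assoc, map_vDesc, lDesc_comp, hr,
      L.map_comp_assoc, hl, e₁_lDesc]
  apply codiv_desc_eq
  rw [q₀_codiv_desc, ← h01, ← in₀₁_rr, L.map_comp_assoc]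
  congr 1
  rw [← cancel_epi (inv (L.map (rr A))), IsIso.inv_hom_id_assoc]
  apply lvv_hom_ext
  · rw [e₀_lDesc, ← cancel_epi (L.map (q₀ A)), q₀_codiv_desc, ← h02, ← L.map_comp_assoc (q₀ A),
      ← in₀₂_rr, L.map_comp_assoc, IsIso.hom_inv_id_assoc]
  · rw [e₁_lDesc, ← cancel_epi (L.map (q₀ A)), q₀_codiv_desc, ← h12, ← L.map_comp_assoc (q₀ A),
      ← in₁₂_rr, L.map_comp_assoc, IsIso.hom_inv_id_assoc]

theorem isCoDiv_codiv (A : C) : IsCoDiv (codiv L A) where
  right_unit := codiv_desc_eq L (by rw [dpr_lDesc_id_zero, Category.comp_id])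
  self := codiv_desc_eq L (by rw [dpr_lDesc_id_id, comp_zero])
  ward := codiv_ward L

/-- The natural co-division on the values of `Susp ⋙ L`. -/
noncomputable def suspCoDiv : CoDivOn (Susp ⋙ L) where
  c A := codiv L A
  naturality f := codiv_naturality L f
  isCoDiv A := isCoDiv_codiv L A

variable (E : D ⥤ D) [E.IsEquivalence] (i : Susp ⋙ L ≅ L ⋙ E)

/-- The natural co-division on `D`. -/
noncomputable def coDiv : CoDiv D :=
  (((suspCoDiv L).ofIso i).descend L W E).toCoDiv

theorem coDiv_c (A : C) : (coDiv L E i).c (L.obj (Susp.obj A)) = codiv L A := by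
  have h := (coDiv L E i).naturality (i.hom.app A)
  have h2 : (coDiv L E i).c ((L ⋙ E).obj A) =
      i.inv.app A ≫ codiv L A ≫ coprod.map (i.hom.app A) (i.hom.app A) := by
    have h3 := (((suspCoDiv L).ofIso i).descend L W E).toCoDiv_c (L.obj A)
    rw [CoDivOn.descend_c] at h3
    exact h3
  rw [h2, Iso.hom_inv_id_app_assoc] at h
  have : IsIso (coprod.map (i.hom.app A) (i.hom.app A)) := by infer_instance
  rw [← cancel_mono (coprod.map (i.hom.app A) (i.hom.app A))]
  exact h.symm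

/-- **The preadditive structure** on the localization of a stable cofibration category. -/
@[reducible]
noncomputable def preadditive : Preadditive D := (coDiv L E i).preadditive

theorem preadditive_sub_eq {A : C} {Y : D} (f g : L.obj (Susp.obj A) ⟶ Y) :
    (letI := preadditive L E i; f - g) = codiv L A ≫ coprod.desc f g := by
  rw [← coDiv_c L E i]
  rfl

/-- In the preadditive structure, `L q₁ = - L q₀`. -/
theorem map_q₁ (A : C) :
    (letI := preadditive L E i; L.map (q₁ A) = - L.map (q₀ A)) := by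
  let _ := preadditive L E i
  have h : (0 : L.obj (Susp.obj A) ⟶ L.obj (Susp.obj A)) - 𝟙 _ = codiv L A ≫ coprod.desc 0 (𝟙 _) :=
    preadditive_sub_eq L E i _ _
  have h2 : L.map (q₀ A) ≫ ((0 : L.obj (Susp.obj A) ⟶ L.obj (Susp.obj A)) - 𝟙 _) =
      L.map (q₁ A) := by
    rw [h, q₀_codiv_desc, dpr_lDesc_zero_id]
  rw [← h2, Preadditive.comp_sub, Category.comp_id, comp_zero, zero_sub]

/-- In the preadditive structure, exchanging the two cones of the suspension is `-1`. -/
theorem map_swap_q₀ (A : C) :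
    (letI := preadditive L E i; L.map (swap A) ≫ L.map (q₀ A) = - L.map (q₀ A)) := by
  rw [← map_q₁, ← L.map_comp, swap_q₀]

/-- The difference of two morphisms out of a suspension, on the double cone. -/
theorem map_dpr_lDesc {A : C} {Y : D} (f g : L.obj (Susp.obj A) ⟶ Y) :
    L.map (dpr A) ≫ lDesc L f g = (letI := preadditive L E i; L.map (q₀ A) ≫ (f - g)) := by
  rw [preadditive_sub_eq, q₀_codiv_desc]

end CofCat

section

variable {D : Type u} [Category.{v} D] {D' : Type u'} [Category.{v'} D'] [Preadditive D]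
  [Preadditive D'] [HasBinaryCoproducts D]

/-- Equivalences between preadditive categories with binary coproducts are additive. -/
theorem additive_of_isEquivalence (F : D ⥤ D') [F.IsEquivalence] : F.Additive := by
  have := HasBinaryBiproducts.of_hasBinaryCoproducts (C := D)
  exact Functor.additive_of_preserves_binary_products F

end

end Vale.Agent.P251.H
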