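import Vale.Agent.P251.H.Cof.Defs
import Mathlib.CategoryTheory.Limits.Shapes.Pullback.IsPullback.BicartesianSq

/-!
# P251, part H: basic lemmas on cofibration categories with cylinders
-/

open CategoryTheory Limits

universe w v u

attribute [local simp] coprod.inl_desc coprod.inr_desc coprod.inl_desc_assoc coprod.inr_desc_assoc

namespace Vale.Agent.P251.H

namespace CofCat

variable {C : Type u} [Category.{v} C] [HasZeroObject C] [HasZeroMorphisms C]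
  [HasBinaryCoproducts C] [CofCat C]

/-- the bottom of the cylinder -/
def ι₀ (X : C) : X ⟶ Cyl.obj X := i₀.app X
/-- the top of the cylinder -/
def ι₁ (X : C) : X ⟶ Cyl.obj X := i₁.app X
/-- the projection of the cylinder -/
def pr (X : C) : Cyl.obj X ⟶ X := π.app X

@[reassoc (attr := simp)]
lemma ι₀_pr (X : C) : ι₀ X ≫ pr X = 𝟙 X := i₀_π X

@[reassoc (attr := simp)]
lemma ι₁_pr (X : C) : ι₁ X ≫ pr X = 𝟙 X := i₁_π X

@[reassoc]
lemma ι₀_map {X Y : C} (f : X ⟶ Y) : ι₀ X ≫ Cyl.map f = f ≫ ι₀ Y := (i₀.naturality f).symm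

@[reassoc]
lemma ι₁_map {X Y : C} (f : X ⟶ Y) : ι₁ X ≫ Cyl.map f = f ≫ ι₁ Y := (i₁.naturality f).symm

@[reassoc]
lemma pr_map {X Y : C} (f : X ⟶ Y) : Cyl.map f ≫ pr Y = pr X ≫ f := π.naturality f

lemma W_id (X : C) : W (𝟙 X) := W_of_isIso _
lemma Cof_id (X : C) : Cof (𝟙 X) := Cof_of_isIso _

lemma W_pr (X : C) : W (pr X) := W_π X

lemma W_ι₀ (X : C) : W (ι₀ X) := W_of_comp_right _ (pr X) (W_pr X) (by simpa using W_id X)
lemma W_ι₁ (X : C) : W (ι₁ X) := W_of_comp_right _ (pr X) (W_pr X) (by simpa using W_id X)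

lemma W_iff_of_comp_left {X Y Z : C} {f : X ⟶ Y} (hf : W f) (g : Y ⟶ Z) :
    W (f ≫ g) ↔ W g := ⟨W_of_comp_left f g hf, W_comp f g hf⟩

lemma W_iff_of_comp_right {X Y Z : C} (f : X ⟶ Y) {g : Y ⟶ Z} (hg : W g) :
    W (f ≫ g) ↔ W f := ⟨W_of_comp_right f g hg, fun hf => W_comp f g hf hg⟩

lemma W_Cyl_map {X Y : C} {f : X ⟶ Y} (hf : W f) : W (Cyl.map f) :=
  W_of_comp_right _ (pr Y) (W_pr Y) (by rw [pr_map]; exact W_comp _ _ (W_pr X) hf)

/-- acyclic cofibrations -/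
structure AC {X Y : C} (f : X ⟶ Y) : Prop where
  cof : Cof f
  w : W f

lemma AC.id (X : C) : AC (𝟙 X) := ⟨Cof_id X, W_id X⟩

lemma AC.of_isIso {X Y : C} (f : X ⟶ Y) [IsIso f] : AC f := ⟨Cof_of_isIso f, W_of_isIso f⟩

lemma AC.comp {X Y Z : C} {f : X ⟶ Y} {g : Y ⟶ Z} (hf : AC f) (hg : AC g) : AC (f ≫ g) :=
  ⟨Cof_comp _ _ hf.cof hg.cof, W_comp _ _ hf.w hg.w⟩

lemma AC.pushout {A B X P : C} {i : A ⟶ B} {f : A ⟶ X} {j : B ⟶ P} {k : X ⟶ P}
    (hi : AC i) (h : IsPushout i f j k) : AC k :=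
  ⟨Cof_pushout h hi.cof, W_pushout h hi.cof hi.w⟩

lemma exists_pushout {A B X : C} (i : A ⟶ B) (f : A ⟶ X) (hi : Cof i) :
    ∃ (P : C) (j : B ⟶ P) (k : X ⟶ P), IsPushout i f j k := by
  have := hasPushout i f hi
  exact ⟨_, _, _, IsPushout.of_hasPushout i f⟩

lemma cof_inl (X Y : C) : Cof (coprod.inl : X ⟶ X ⨿ Y) :=
  Cof_pushout (IsPushout.of_hasBinaryCoproduct (X := X) (Y := Y)).flip
    (Cof_zero (isZero_zero C) _)

lemma cof_inr (X Y : C) : Cof (coprod.inr : Y ⟶ X ⨿ Y) :=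
  Cof_pushout (IsPushout.of_hasBinaryCoproduct (X := X) (Y := Y))
    (Cof_zero (isZero_zero C) _)

/-- the inclusion of the two ends of the cylinder -/
noncomputable def ends (X : C) : X ⨿ X ⟶ Cyl.obj X := coprod.desc (ι₀ X) (ι₁ X)

@[reassoc (attr := simp)]
lemma inl_ends (X : C) : coprod.inl ≫ ends X = ι₀ X := coprod.inl_desc _ _
@[reassoc (attr := simp)]
lemma inr_ends (X : C) : coprod.inr ≫ ends X = ι₁ X := coprod.inr_desc _ _

lemma cof_ends (X : C) : Cof (ends X) := Cof_ends X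

lemma cof_ι₀ (X : C) : Cof (ι₀ X) := by
  rw [← inl_ends]; exact Cof_comp _ _ (cof_inl X X) (cof_ends X)

lemma cof_ι₁ (X : C) : Cof (ι₁ X) := by
  rw [← inr_ends]; exact Cof_comp _ _ (cof_inr X X) (cof_ends X)

lemma AC_ι₀ (X : C) : AC (ι₀ X) := ⟨cof_ι₀ X, W_ι₀ X⟩
lemma AC_ι₁ (X : C) : AC (ι₁ X) := ⟨cof_ι₁ X, W_ι₁ X⟩

omit [HasZeroObject C] [HasZeroMorphisms C] [CofCat C] in
lemma isPushout_coprod_map_left {A B : C} (f : A ⟶ B) (X : C) :
    IsPushout f (coprod.inl : A ⟶ A ⨿ X) (coprod.inl : B ⟶ B ⨿ X) (coprod.map f (𝟙 X)) := by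
  refine ⟨⟨by simp⟩, ⟨PushoutCocone.IsColimit.mk _
    (fun s => coprod.desc s.inl (coprod.inr ≫ s.inr)) ?_ ?_ ?_⟩⟩
  · intro s; simp
  · intro s
    ext
    · simpa using s.condition
    · simp
  · intro s m h₁ h₂
    ext
    · simpa using h₁
    · rw [← h₂]; simp

omit [HasZeroObject C] [HasZeroMorphisms C] [CofCat C] in
lemma isPushout_coprod_map_right {A B : C} (f : A ⟶ B) (X : C) :
    IsPushout f (coprod.inr : A ⟶ X ⨿ A) (coprod.inr : B ⟶ X ⨿ B) (coprod.map (𝟙 X) f) := by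
  refine ⟨⟨by simp⟩, ⟨PushoutCocone.IsColimit.mk _
    (fun s => coprod.desc (coprod.inl ≫ s.inr) s.inl) ?_ ?_ ?_⟩⟩
  · intro s; simp
  · intro s
    ext
    · simp
    · simpa using s.condition
  · intro s m h₁ h₂
    ext
    · rw [← h₂]; simp
    · simpa using h₁

lemma Cof.coprodMap {A B A' B' : C} {f : A ⟶ B} {g : A' ⟶ B'} (hf : Cof f) (hg : Cof g) :
    Cof (coprod.map f g) := by
  have h : coprod.map f g = coprod.map f (𝟙 A') ≫ coprod.map (𝟙 B) g := by simp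
  rw [h]
  exact Cof_comp _ _ (Cof_pushout (isPushout_coprod_map_left f A') hf)
    (Cof_pushout (isPushout_coprod_map_right g B) hg)

lemma AC.coprodMap {A B A' B' : C} {f : A ⟶ B} {g : A' ⟶ B'} (hf : AC f) (hg : AC g) :
    AC (coprod.map f g) := by
  have h : coprod.map f g = coprod.map f (𝟙 A') ≫ coprod.map (𝟙 B) g := by simp
  rw [h]
  exact (hf.pushout (isPushout_coprod_map_left f A')).comp
    (hg.pushout (isPushout_coprod_map_right g B))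

/-- The mapping cylinder: every morphism `f : A ⟶ B` is `A -j-> M -r-> B` with `j` a cofibration,
`r` a weak equivalence with a section `k` which is an acyclic cofibration, and `f ≫ k` is homotopic
to `j`. -/
lemma exists_mappingCylinder {A B : C} (f : A ⟶ B) :
    ∃ (M : C) (a : Cyl.obj A ⟶ M) (k : B ⟶ M) (r : M ⟶ B),
      IsPushout (ι₀ A) f a k ∧ AC k ∧ k ≫ r = 𝟙 B ∧ a ≫ r = pr A ≫ f ∧ W r ∧
      Cof (ι₁ A ≫ a) ∧ (ι₁ A ≫ a) ≫ r = f ∧ Cof (coprod.desc k (ι₁ A ≫ a)) := by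
  obtain ⟨M, a, b, h⟩ := exists_pushout (ends A) (coprod.map f (𝟙 A)) (cof_ends A)
  have hb : Cof b := Cof_pushout h (cof_ends A)
  have w₀ : ι₀ A ≫ a = f ≫ coprod.inl ≫ b := by
    have := coprod.inl ≫= h.w
    simpa using this
  have w₁ : ι₁ A ≫ a = coprod.inr ≫ b := by
    have := coprod.inr ≫= h.w
    simpa using this
  have hp : IsPushout (ι₀ A) f a (coprod.inl ≫ b) := by
    refine ⟨⟨w₀⟩, ⟨PushoutCocone.IsColimit.mk _
      (fun s => h.desc s.inl (coprod.desc s.inr (ι₁ A ≫ s.inl)) ?_) ?_ ?_ ?_⟩⟩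
    · ext
      · simpa using s.condition
      · simp
    · intro s; simp
    · intro s; simp
    · intro s m h₁ h₂
      apply h.hom_ext
      · simpa using h₁
      · ext
        · simpa using h₂
        · simp only [IsPushout.inr_desc, coprod.inr_desc, ← h₁]
          rw [← Category.assoc, ← w₁, Category.assoc]
  have hr : ends A ≫ pr A ≫ f = coprod.map f (𝟙 A) ≫ coprod.desc (𝟙 B) f := by
    ext <;> simp
  let r : M ⟶ B := h.desc (pr A ≫ f) (coprod.desc (𝟙 B) f) hr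
  have hbr : b ≫ r = coprod.desc (𝟙 B) f := h.inr_desc _ _ _
  have har : a ≫ r = pr A ≫ f := h.inl_desc _ _ _
  have hk : AC (coprod.inl ≫ b) := (AC_ι₀ A).pushout hp
  have hkr : (coprod.inl ≫ b) ≫ r = 𝟙 B := by simp [hbr]
  refine ⟨M, a, coprod.inl ≫ b, r, hp, hk, hkr, har, ?_, ?_, ?_, ?_⟩
  · exact W_of_comp_left _ r hk.w (by rw [hkr]; exact W_id B)
  · rw [w₁]; exact Cof_comp _ _ (cof_inr _ _) hb
  · rw [Category.assoc, har]; simp
  · rw [w₁]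
    have : coprod.desc (coprod.inl ≫ b) (coprod.inr ≫ b) = b := by ext <;> simp
    rw [this]; exact hb

/-- Factorization of a morphism as a cofibration followed by a weak equivalence. -/
lemma exists_factor {A B : C} (f : A ⟶ B) :
    ∃ (M : C) (j : A ⟶ M) (r : M ⟶ B) (k : B ⟶ M), Cof j ∧ W r ∧ AC k ∧ j ≫ r = f ∧
      k ≫ r = 𝟙 B := by
  obtain ⟨M, a, k, r, _, hk, hkr, _, hr, hj, hjr, _⟩ := exists_mappingCylinder f
  exact ⟨M, ι₁ A ≫ a, r, k, hj, hr, hk, hjr, hkr⟩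

/-- (Left) homotopy through the cylinder. -/
def Htpy {A B : C} (f g : A ⟶ B) : Prop :=
  ∃ H : Cyl.obj A ⟶ B, ι₀ A ≫ H = f ∧ ι₁ A ≫ H = g

lemma Htpy.refl {A B : C} (f : A ⟶ B) : Htpy f f := ⟨pr A ≫ f, by simp, by simp⟩

lemma Htpy.postcomp {A B B' : C} {f g : A ⟶ B} (h : Htpy f g) (t : B ⟶ B') :
    Htpy (f ≫ t) (g ≫ t) := by
  obtain ⟨H, rfl, rfl⟩ := h
  exact ⟨H ≫ t, by simp, by simp⟩

lemma Htpy.precomp {A' A B : C} {f g : A ⟶ B} (h : Htpy f g) (u : A' ⟶ A) :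
    Htpy (u ≫ f) (u ≫ g) := by
  obtain ⟨H, rfl, rfl⟩ := h
  exact ⟨Cyl.map u ≫ H, by rw [ι₀_map_assoc], by rw [ι₁_map_assoc]⟩

lemma Htpy.W_iff {A B : C} {f g : A ⟶ B} (h : Htpy f g) : W f ↔ W g := by
  obtain ⟨H, rfl, rfl⟩ := h
  rw [W_iff_of_comp_left (W_ι₀ A), W_iff_of_comp_left (W_ι₁ A)]

/-- The mapping cylinder factorization, with the homotopy. -/
lemma exists_factor' {A B : C} (f : A ⟶ B) :
    ∃ (M : C) (j : A ⟶ M) (r : M ⟶ B) (k : B ⟶ M), Cof j ∧ W r ∧ AC k ∧ j ≫ r = f ∧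
      k ≫ r = 𝟙 B ∧ Htpy (f ≫ k) j ∧ Cof (coprod.desc k j) := by
  obtain ⟨M, a, k, r, hp, hk, hkr, _, hr, hj, hjr, hc⟩ := exists_mappingCylinder f
  exact ⟨M, ι₁ A ≫ a, r, k, hj, hr, hk, hjr, hkr, ⟨a, hp.w, rfl⟩, hc⟩

/-- Stable homotopy relation: homotopic after composing with an acyclic cofibration. This is the
relation that becomes equality in the localized category. -/
def R {A B : C} (f g : A ⟶ B) : Prop :=
  ∃ (B' : C) (t : B ⟶ B'), AC t ∧ Htpy (f ≫ t) (g ≫ t)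

lemma Htpy.r {A B : C} {f g : A ⟶ B} (h : Htpy f g) : R f g :=
  ⟨B, 𝟙 B, AC.id B, by simpa using h⟩

lemma R.refl {A B : C} (f : A ⟶ B) : R f f := (Htpy.refl f).r

lemma R.precomp {A' A B : C} {f g : A ⟶ B} (h : R f g) (u : A' ⟶ A) : R (u ≫ f) (u ≫ g) := by
  obtain ⟨B', t, ht, h⟩ := h
  exact ⟨B', t, ht, by simpa using h.precomp u⟩

lemma R.postcomp {A B D : C} {f g : A ⟶ B} (h : R f g) (u : B ⟶ D) : R (f ≫ u) (g ≫ u) := by
  obtain ⟨B', t, ht, h⟩ := h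
  obtain ⟨P, a, b, hp⟩ := exists_pushout t u ht.cof
  refine ⟨P, b, ht.pushout hp, ?_⟩
  have := h.postcomp a
  simpa [hp.w] using this

lemma R.of_comp_AC {A B B' : C} {f g : A ⟶ B} {t : B ⟶ B'} (ht : AC t)
    (h : R (f ≫ t) (g ≫ t)) : R f g := by
  obtain ⟨B'', s, hs, h⟩ := h
  exact ⟨B'', t ≫ s, ht.comp hs, by simpa using h⟩

lemma R.W_iff {A B : C} {f g : A ⟶ B} (h : R f g) : W f ↔ W g := by
  obtain ⟨B', t, ht, h⟩ := h
  rw [← W_iff_of_comp_right f ht.w, ← W_iff_of_comp_right g ht.w]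
  exact h.W_iff

/-- Homotopies through arbitrary (pre)cylinder objects give the relation `R`. -/
lemma R.of_cylinder {A B E : C} (a₀ a₁ : A ⟶ E) (p : E ⟶ A) (K : E ⟶ B)
    (h₀ : a₀ ≫ p = 𝟙 A) (h₁ : a₁ ≫ p = 𝟙 A) (hp : W p) : R (a₀ ≫ K) (a₁ ≫ K) := by
  obtain ⟨U, a, b, hU⟩ := exists_pushout (ends A) (coprod.desc a₀ a₁) (cof_ends A)
  have w₀ : ι₀ A ≫ a = a₀ ≫ b := by simpa using coprod.inl ≫= hU.w
  have w₁ : ι₁ A ≫ a = a₁ ≫ b := by simpa using coprod.inr ≫= hU.w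
  let q : U ⟶ A := hU.desc (pr A) p (by ext <;> simp [h₀, h₁])
  have hbq : b ≫ q = p := hU.inr_desc _ _ _
  obtain ⟨M, j, r, _, hj, hr, _, hjr, _⟩ := exists_factor q
  have hb : Cof b := Cof_pushout hU (cof_ends A)
  have hbj : AC (b ≫ j) := by
    refine ⟨Cof_comp _ _ hb hj, W_of_comp_right _ r hr ?_⟩
    rw [Category.assoc, hjr, hbq]; exact hp
  obtain ⟨P, x, y, hP⟩ := exists_pushout (b ≫ j) K hbj.cof
  refine ⟨P, y, hbj.pushout hP, a ≫ j ≫ x, ?_, ?_⟩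
  · rw [reassoc_of% w₀, Category.assoc, ← hP.w, Category.assoc]
  · rw [reassoc_of% w₁, Category.assoc, ← hP.w, Category.assoc]

lemma R.symm {A B : C} {f g : A ⟶ B} (h : R f g) : R g f := by
  obtain ⟨B', t, ht, H, h₀, h₁⟩ := h
  apply R.of_comp_AC ht
  rw [← h₀, ← h₁]
  exact R.of_cylinder (ι₁ A) (ι₀ A) (pr A) H (by simp) (by simp) (W_pr A)

lemma R.trans {A B : C} {f g h : A ⟶ B} (h₁ : R f g) (h₂ : R g h) : R f h := by
  obtain ⟨B₁, t₁, ht₁, H₁⟩ := h₁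
  obtain ⟨B₂, t₂, ht₂, H₂⟩ := h₂
  obtain ⟨P, a, b, hP⟩ := exists_pushout t₁ t₂ ht₁.cof
  obtain ⟨K₁, k₁, k₁'⟩ := H₁.postcomp a
  obtain ⟨K₂, k₂, k₂'⟩ := H₂.postcomp b
  have hs : AC (t₁ ≫ a) := by
    rw [hP.w]; exact ht₂.comp (ht₁.pushout hP)
  apply R.of_comp_AC hs
  obtain ⟨E, x, y, hE⟩ := exists_pushout (ι₁ A) (ι₀ A) (cof_ι₁ A)
  have hK : ι₁ A ≫ K₁ = ι₀ A ≫ K₂ := by
    rw [k₁', k₂]
    simp only [Category.assoc, hP.w]
  let K : E ⟶ P := hE.desc K₁ K₂ hK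
  let p : E ⟶ A := hE.desc (pr A) (pr A) (by simp)
  have hp : W p := by
    have hy : AC y := (AC_ι₁ A).pushout hE
    refine W_of_comp_left y p hy.w ?_
    rw [hE.inr_desc]; exact W_pr A
  have e₀ : (ι₀ A ≫ x) ≫ K = f ≫ t₁ ≫ a := by
    rw [Category.assoc, hE.inl_desc, k₁, Category.assoc]
  have e₁ : (ι₁ A ≫ y) ≫ K = h ≫ t₁ ≫ a := by
    rw [Category.assoc, hE.inr_desc, k₂', hP.w, Category.assoc]
  rw [← e₀, ← e₁]
  exact R.of_cylinder _ _ p K (by rw [Category.assoc, hE.inl_desc]; simp)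
    (by rw [Category.assoc, hE.inr_desc]; simp) hp

/-- Cancellation of weak equivalences on the right. -/
lemma R.of_comp_W {A B B' : C} {f g : A ⟶ B} {t : B ⟶ B'} (ht : W t)
    (h : R (f ≫ t) (g ≫ t)) : R f g := by
  obtain ⟨M, j, r, k, hj, hr, hk, hjr, hkr, hh, -⟩ := exists_factor' t
  have hjA : AC j := ⟨hj, W_of_comp_right j r hr (by rwa [hjr])⟩
  apply R.of_comp_AC hjA
  have h₁ : R (f ≫ t ≫ k) (f ≫ j) := (hh.precomp f).r
  have h₂ : R (g ≫ t ≫ k) (g ≫ j) := (hh.precomp g).r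
  have h₃ := h.postcomp k
  simp only [Category.assoc] at h₃
  exact (h₁.symm.trans h₃).trans h₂

/-- The homotopy extension property: for a cofibration `j : A ⟶ B`, the map
`B ∪_A Cyl A ⟶ Cyl B` is an acyclic cofibration. -/
lemma AC_hep {A B P : C} {j : A ⟶ B} (hj : Cof j) {a : B ⟶ P} {b : Cyl.obj A ⟶ P}
    (hP : IsPushout (ι₀ A) j b a) (d : P ⟶ Cyl.obj B) (hd₀ : a ≫ d = ι₀ B)
    (hd : b ≫ d = Cyl.map j) : AC d := by
  have ha : AC a := (AC_ι₀ A).pushout hP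
  have hdW : W d := W_of_comp_left a d ha.w (by rw [hd₀]; exact W_ι₀ B)
  refine ⟨?_, hdW⟩
  obtain ⟨Z, z, y, hZ⟩ := exists_pushout j (ι₁ A ≫ b) hj
  -- `Z = B ∪_A Cyl A ∪_A B`
  have hz : Cof y := Cof_pushout hZ hj
  have hw := hP.w
  have hZ' : IsPushout (coprod.map j j) (ends A) (coprod.desc (a ≫ y) z) (b ≫ y) := by
    refine ⟨⟨?_⟩, ⟨PushoutCocone.IsColimit.mk _
      (fun s => hZ.desc (coprod.inr ≫ s.inl) (hP.desc s.inr (coprod.inl ≫ s.inl) ?_) ?_) ?_ ?_ ?_⟩⟩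
    · ext
      · simp only [coprod.inl_map_assoc, coprod.inl_desc, inl_ends_assoc]
        rw [reassoc_of% hw]
      · simp only [coprod.inr_map_assoc, coprod.inr_desc, inr_ends_assoc]
        rw [hZ.w, Category.assoc]
    · have := coprod.inl ≫= s.condition
      simpa using this.symm
    · have := coprod.inr ≫= s.condition
      simpa using this
    · intro s
      ext
      · simp
      · simp
    · intro s; simp
    · intro s m h₁ h₂
      apply hZ.hom_ext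
      · have := coprod.inr ≫= h₁
        simpa using this
      · apply hP.hom_ext
        · simpa using h₂
        · have := coprod.inl ≫= h₁
          simpa using this
  let d' : Z ⟶ Cyl.obj B := hZ.desc (ι₁ B) d (by rw [Category.assoc, hd, ι₁_map])
  have hd' : Cof d' := by
    refine Cof_pushoutProduct j (coprod.desc (a ≫ y) z) (b ≫ y) d' hj hZ' ?_ ?_
    · ext
      · simp only [coprod.inl_desc_assoc, Category.assoc, coprod.inl_desc]
        rw [hZ.inr_desc, hd₀]; rfl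
      · simp only [coprod.inr_desc_assoc, coprod.inr_desc]
        rw [hZ.inl_desc]; rfl
    · rw [Category.assoc, hZ.inr_desc, hd]
  have : d = y ≫ d' := (hZ.inr_desc _ _ _).symm
  rw [this]
  exact Cof_comp _ _ hz hd'

/-- two-ended homotopy extension for acyclic cofibrations -/
lemma AC_hep₂ {A B P : C} {j : A ⟶ B} (hj : AC j) {a : B ⨿ B ⟶ P} {b : Cyl.obj A ⟶ P}
    (hP : IsPushout (coprod.map j j) (ends A) a b) (d : P ⟶ Cyl.obj B)
    (hd₀ : a ≫ d = ends B) (hd : b ≫ d = Cyl.map j) : AC d := by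
  refine ⟨Cof_pushoutProduct j a b d hj.cof hP hd₀ hd, ?_⟩
  have hb : AC b := (hj.coprodMap hj).pushout hP
  refine W_of_comp_left b d hb.w ?_
  rw [hd]; exact W_Cyl_map hj.w

/-- Cancellation of weak equivalences on the left. -/
lemma R.of_W_comp {A' A B : C} {s : A' ⟶ A} (hs : W s) {f g : A ⟶ B}
    (h : R (s ≫ f) (s ≫ g)) : R f g := by
  obtain ⟨B₁, t, ht, H, h₀, h₁⟩ := h
  apply R.of_comp_AC ht
  obtain ⟨M, j, r, k, hj, hr, hk, hjr, hkr⟩ := exists_factor s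
  have hjA : AC j := ⟨hj, W_of_comp_right j r hr (by rw [hjr]; exact hs)⟩
  have := hasPushout (coprod.map j j) (ends A') (Cof.coprodMap hj hj)
  obtain ⟨Z, a, b, hZ⟩ : ∃ (P : C) (x : M ⨿ M ⟶ P) (y : Cyl.obj A' ⟶ P),
      IsPushout (coprod.map j j) (ends A') x y := ⟨_, _, _, IsPushout.of_hasPushout _ _⟩
  let d : Z ⟶ Cyl.obj M := hZ.desc (ends M) (Cyl.map j) (by
    ext
    · simp [ι₀_map]
    · simp [ι₁_map])
  have hd : AC d := AC_hep₂ hjA hZ d (hZ.inl_desc _ _ _) (hZ.inr_desc _ _ _)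
  let K : Z ⟶ B₁ := hZ.desc (coprod.desc (r ≫ f ≫ t) (r ≫ g ≫ t)) H (by
    ext
    · simp [h₀, reassoc_of% hjr]
    · simp [h₁, reassoc_of% hjr])
  obtain ⟨B₂, x, y, hB⟩ := exists_pushout d K hd.cof
  have hy : AC y := hd.pushout hB
  apply R.of_comp_AC hy
  have key : Htpy ((r ≫ f ≫ t) ≫ y) ((r ≫ g ≫ t) ≫ y) := by
    refine ⟨x, ?_, ?_⟩
    · have e : ι₀ M = coprod.inl ≫ a ≫ d := by simp [d]
      rw [e, Category.assoc, Category.assoc, hB.w]
      simp [K]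
    · have e : ι₁ M = coprod.inr ≫ a ≫ d := by simp [d]
      rw [e, Category.assoc, Category.assoc, hB.w]
      simp [K]
  have := (key.precomp k).r
  simpa [reassoc_of% hkr] using this

/-- The homotopy pushout (Ore condition). -/
lemma exists_ore {A B X : C} {s : A ⟶ B} (hs : W s) (f : A ⟶ X) :
    ∃ (P : C) (g : B ⟶ P) (t : X ⟶ P), AC t ∧ R (s ≫ g) (f ≫ t) := by
  obtain ⟨M, a, k, r, hp, hk, hkr, har, hr, hj, hjr, -⟩ := exists_mappingCylinder s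
  have hjA : AC (ι₁ A ≫ a) := ⟨hj, W_of_comp_right _ r hr (by rw [hjr]; exact hs)⟩
  obtain ⟨P, x, t, hP⟩ := exists_pushout (ι₁ A ≫ a) f hj
  refine ⟨P, k ≫ x, t, hjA.pushout hP, ?_⟩
  rw [← hP.w]
  apply Htpy.r
  exact ⟨a ≫ x, by rw [reassoc_of% hp.w], by simp⟩

end CofCat

end Vale.Agent.P251.H
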