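import Vale.Agent.P251.H.Cof.Basic
import Mathlib.CategoryTheory.Localization.CalculusOfFractions
import Mathlib.CategoryTheory.Quotient

/-!
# P251, part H: calculus of fractions for cofibration categories with cylinders
-/

open CategoryTheory Limits

universe w v u v' u'

namespace Vale.Agent.P251.H

namespace CofCat

variable {C : Type u} [Category.{v} C] [HasZeroObject C] [HasZeroMorphisms C]
  [HasBinaryCoproducts C] [CofCat C]

variable (C) in
/-- the relation `R` as a `HomRel` -/
def rel : HomRel C := fun _ _ f g => R f g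

instance : Congruence (rel C) where
  equivalence := ⟨R.refl, R.symm, R.trans⟩
  comp_left f _ _ h := R.precomp h f
  comp_right g h := R.postcomp h g

variable (C) in
/-- the quotient category `C/R` -/
abbrev K := CategoryTheory.Quotient (rel C)

variable (C) in
/-- the quotient functor -/
abbrev q : C ⥤ K C := CategoryTheory.Quotient.functor (rel C)

lemma q_map_eq_iff {X Y : C} (f g : X ⟶ Y) : (q C).map f = (q C).map g ↔ R f g :=
  CategoryTheory.Quotient.functor_map_eq_iff (rel C) f g

variable (C) in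
/-- the weak equivalences in `C/R` -/
def WK : MorphismProperty (K C) := fun X Y φ => ∃ f : X.as ⟶ Y.as, W f ∧ (q C).map f = φ

lemma WK_q_map_iff {X Y : C} (f : X ⟶ Y) : WK C ((q C).map f) ↔ W f := by
  constructor
  · rintro ⟨g, hg, h⟩
    exact (((q_map_eq_iff g f).1 h).W_iff).1 hg
  · intro h
    exact ⟨f, h, rfl⟩

instance : (WK C).HasLeftCalculusOfFractions where
  id_mem X := ⟨𝟙 _, W_id _, (q C).map_id _⟩
  comp_mem := by
    rintro ⟨X⟩ ⟨Y⟩ ⟨Z⟩ f g ⟨f', hf, rfl⟩ ⟨g', hg, rfl⟩
    exact ⟨f' ≫ g', W_comp _ _ hf hg, (q C).map_comp _ _⟩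
  exists_leftFraction := by
    rintro ⟨X⟩ ⟨Y⟩ φ
    obtain ⟨s', hs, hs'⟩ := φ.hs
    obtain ⟨f', hf'⟩ := (q C).map_surjective (X := φ.X'.as) (Y := Y) φ.f
    obtain ⟨P, g, t, ht, h⟩ := exists_ore hs f'
    refine ⟨⟨(q C).map g, (q C).map t, ⟨t, ht.w, rfl⟩⟩, ?_⟩
    rw [← hs', ← hf']
    exact (q_map_eq_iff _ _).2 h.symm
  ext := by
    rintro ⟨X'⟩ ⟨X⟩ ⟨Y⟩ f₁ f₂ s ⟨s', hs, rfl⟩ h
    obtain ⟨f₁, rfl⟩ := (q C).map_surjective (X := X) (Y := Y) f₁
    obtain ⟨f₂, rfl⟩ := (q C).map_surjective (X := X) (Y := Y) f₂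
    rw [← Functor.map_comp, ← Functor.map_comp, q_map_eq_iff] at h
    refine ⟨⟨Y⟩, 𝟙 _, ⟨𝟙 _, W_id _, (q C).map_id _⟩, ?_⟩
    rw [Category.comp_id, Category.comp_id, q_map_eq_iff]
    exact h.of_W_comp hs

section

variable {D : Type u'} [Category.{v'} D] (L : C ⥤ D) [L.IsLocalization (W (C := C))]

include L in
lemma isIso_map {X Y : C} {f : X ⟶ Y} (hf : W f) : IsIso (L.map f) :=
  Localization.inverts L (W (C := C)) f hf

lemma map_eq_of_Htpy {X Y : C} {f g : X ⟶ Y} (h : Htpy f g) : L.map f = L.map g := by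
  obtain ⟨H, rfl, rfl⟩ := h
  have := isIso_map L (W_pr X)
  have e : L.map (ι₀ X) = L.map (ι₁ X) := by
    rw [← cancel_mono (L.map (pr X)), ← L.map_comp, ← L.map_comp]
    simp
  rw [L.map_comp, L.map_comp, e]

lemma map_eq_of_R {X Y : C} {f g : X ⟶ Y} (h : R f g) : L.map f = L.map g := by
  obtain ⟨Z, t, ht, h⟩ := h
  have := isIso_map L ht.w
  have := map_eq_of_Htpy L h
  rwa [L.map_comp, L.map_comp, cancel_mono] at this

/-- the functor induced by `L` on `C/R` -/
abbrev liftK : K C ⥤ D := CategoryTheory.Quotient.lift (rel C) L (fun _ _ _ _ h => map_eq_of_R L h)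

end

/-- `K C ⥤ W.Localization` is a localization -/
lemma isLocalization_liftK_Q : (liftK (W (C := C)).Q).IsLocalization (WK C) := by
  have key : ∀ (E : Type (max u v)) [Category.{max u v} E], True := fun _ _ => trivial
  clear key
  have fp : ∀ {E : Type _} [Category E],
      Nonempty (Localization.StrictUniversalPropertyFixedTarget
        (liftK (W (C := C)).Q) (WK C) E) := by
    intro E _
    have h0 : ∀ (F : K C ⥤ E), (WK C).IsInvertedBy F → (W (C := C)).IsInvertedBy (q C ⋙ F) := by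
      intro F hF X Y f hf
      exact hF _ ⟨f, hf, rfl⟩
    refine ⟨⟨?_, fun F hF => Localization.Construction.lift (q C ⋙ F) (h0 F hF), ?_, ?_⟩⟩
    · rintro ⟨X⟩ ⟨Y⟩ _ ⟨f, hf, rfl⟩
      exact isIso_map (W (C := C)).Q hf
    · intro F hF
      apply CategoryTheory.Quotient.lift_unique'
      exact Localization.Construction.fac (q C ⋙ F) (h0 F hF)
    · intro F₁ F₂ h
      apply Localization.Construction.uniq
      have := congrArg (fun G => q C ⋙ G) h
      exact this
  exact Functor.IsLocalization.mk' _ _ fp.some fp.some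

section

variable {D : Type u'} [Category.{v'} D] (L : C ⥤ D) [L.IsLocalization (W (C := C))]

instance isLocalization_liftK : (liftK L).IsLocalization (WK C) := by
  have := isLocalization_liftK_Q (C := C)
  let E := Localization.uniq (W (C := C)).Q L (W (C := C))
  refine Functor.IsLocalization.of_equivalence_target (liftK (W (C := C)).Q) (WK C) (liftK L) E ?_
  exact CategoryTheory.Quotient.natIsoLift (rel C) (Localization.compUniqFunctor (W (C := C)).Q L W)

/-- Every morphism in the localization is a fraction `L(s)⁻¹ ∘ L(f)` with `s` an acyclic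
cofibration. -/
lemma exists_fraction {X Y : C} (φ : L.obj X ⟶ L.obj Y) :
    ∃ (Y' : C) (f : X ⟶ Y') (s : Y ⟶ Y'), AC s ∧ φ ≫ L.map s = L.map f := by
  obtain ⟨ψ, hψ⟩ :=
    Localization.exists_leftFraction (liftK L) (WK C) (X := ⟨X⟩) (Y := ⟨Y⟩) φ
  obtain ⟨s', hs, hs'⟩ := ψ.hs
  obtain ⟨f, hf⟩ := (q C).map_surjective (X := X) (Y := ψ.Y'.as) ψ.f
  have e : φ ≫ L.map s' = L.map f := by
    have := MorphismProperty.LeftFraction.map_comp_map_s ψ (liftK L) (Localization.inverts _ _)
    rw [← hψ, ← hs', ← hf] at this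
    exact this
  obtain ⟨M, j, r, k, hj, hr, hk, hjr, hkr⟩ := exists_factor s'
  refine ⟨M, f ≫ k, j, ⟨hj, W_of_comp_right j r hr (by rwa [hjr])⟩, ?_⟩
  have := isIso_map L hr
  rw [← cancel_mono (L.map r), Category.assoc, ← L.map_comp, hjr, e, ← L.map_comp,
    Category.assoc, hkr, Category.comp_id]

/-- Two morphisms become equal in the localization if and only if they are related by `R`. -/
lemma map_eq_iff {X Y : C} (f g : X ⟶ Y) : L.map f = L.map g ↔ R f g := by
  constructor
  · intro h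
    have h' : (liftK L).map ((q C).map f) = (liftK L).map ((q C).map g) := h
    rw [MorphismProperty.map_eq_iff_postcomp (liftK L) (WK C)] at h'
    obtain ⟨⟨Z⟩, _, ⟨s, hs, rfl⟩, h⟩ := h'
    rw [← Functor.map_comp, ← Functor.map_comp, q_map_eq_iff] at h
    exact h.of_comp_W hs
  · exact map_eq_of_R L

end

end CofCat

end Vale.Agent.P251.H
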