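import Vale.Agent.P251.H.Cof.Basic
import Mathlib.CategoryTheory.Limits.Shapes.Pullback.HasPullback
import Mathlib.CategoryTheory.Limits.Shapes.Pullback.IsPullback.BicartesianSq
import Mathlib.CategoryTheory.Limits.Shapes.ZeroObjects
import Mathlib.Tactic.CategoryTheory.Reassoc

/-!
# P251, part H: pointwise pushouts of functors, cones and suspensions in a cofibration category

* `po α β` : the pointwise pushout of natural transformations `α : F ⟶ G`, `β : F ⟶ H`.
* `Cone : C ⥤ C`, `Cone A = Cyl A / (A × 1)`, with `coneIncl : 𝟭 C ⟶ Cone` (the end `0`).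
* `Susp : C ⥤ C`, `Susp A = Cone A / A`, with `coneProj : Cone ⟶ Susp`.
-/

open CategoryTheory Limits

universe w v u v' u'

namespace Vale.Agent.P251.H

attribute [local simp] pushout.inl_desc pushout.inr_desc pushout.inl_desc_assoc
  pushout.inr_desc_assoc coprod.inl_desc coprod.inr_desc coprod.inl_desc_assoc
  coprod.inr_desc_assoc

section po

variable {K : Type u'} [Category.{v'} K] {C : Type u} [Category.{v} C]
variable {F G H : K ⥤ C} (α : F ⟶ G) (β : F ⟶ H) [∀ X, HasPushout (α.app X) (β.app X)]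

/-- The pointwise pushout of two natural transformations. -/
noncomputable def po : K ⥤ C where
  obj X := pushout (α.app X) (β.app X)
  map {X Y} f := pushout.map (α.app X) (β.app X) (α.app Y) (β.app Y) (G.map f) (H.map f) (F.map f)
    (by simp) (by simp)
  map_id X := by ext <;> simp
  map_comp f g := by ext <;> simp

namespace po

/-- The first inclusion into the pointwise pushout. -/
noncomputable def inl : G ⟶ po α β where
  app X := pushout.inl (α.app X) (β.app X)
  naturality _ _ _ := (pushout.inl_desc _ _ _).symm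

/-- The second inclusion into the pointwise pushout. -/
noncomputable def inr : H ⟶ po α β where
  app X := pushout.inr (α.app X) (β.app X)
  naturality _ _ _ := (pushout.inr_desc _ _ _).symm

@[reassoc]
theorem condition : α ≫ inl α β = β ≫ inr α β := by
  ext X
  exact pushout.condition

@[reassoc]
theorem condition_app (X : K) : α.app X ≫ (inl α β).app X = β.app X ≫ (inr α β).app X :=
  pushout.condition

theorem isPushout_app (X : K) :
    IsPushout (α.app X) (β.app X) ((inl α β).app X) ((inr α β).app X) :=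
  IsPushout.of_hasPushout _ _

variable {α β}

theorem obj_hom_ext {X : K} {T : C} {f g : (po α β).obj X ⟶ T}
    (h₁ : (inl α β).app X ≫ f = (inl α β).app X ≫ g)
    (h₂ : (inr α β).app X ≫ f = (inr α β).app X ≫ g) : f = g :=
  pushout.hom_ext h₁ h₂

/-- Morphisms out of the value of a pointwise pushout. -/
noncomputable def objDesc {X : K} {T : C} (f : G.obj X ⟶ T) (g : H.obj X ⟶ T)
    (h : α.app X ≫ f = β.app X ≫ g) : (po α β).obj X ⟶ T :=
  pushout.desc f g h

@[reassoc (attr := simp)]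
theorem inl_objDesc {X : K} {T : C} (f : G.obj X ⟶ T) (g : H.obj X ⟶ T)
    (h : α.app X ≫ f = β.app X ≫ g) : (inl α β).app X ≫ objDesc f g h = f :=
  pushout.inl_desc _ _ _

@[reassoc (attr := simp)]
theorem inr_objDesc {X : K} {T : C} (f : G.obj X ⟶ T) (g : H.obj X ⟶ T)
    (h : α.app X ≫ f = β.app X ≫ g) : (inr α β).app X ≫ objDesc f g h = g :=
  pushout.inr_desc _ _ _

omit [∀ X, HasPushout (α.app X) (β.app X)] in
theorem app_eq {T : K ⥤ C} {f : G ⟶ T} {g : H ⟶ T} (h : α ≫ f = β ≫ g) (X : K) :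
    α.app X ≫ f.app X = β.app X ≫ g.app X := by
  rw [← NatTrans.comp_app, h, NatTrans.comp_app]

/-- Natural transformations out of the pointwise pushout. -/
noncomputable def desc {T : K ⥤ C} (f : G ⟶ T) (g : H ⟶ T) (h : α ≫ f = β ≫ g) :
    po α β ⟶ T where
  app X := objDesc (f.app X) (g.app X) (app_eq h X)
  naturality {X Y} t := by
    apply obj_hom_ext
    · rw [← NatTrans.naturality_assoc, inl_objDesc, NatTrans.naturality, inl_objDesc_assoc]
    · rw [← NatTrans.naturality_assoc, inr_objDesc, NatTrans.naturality, inr_objDesc_assoc]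

@[reassoc (attr := simp)]
theorem inl_desc_app {T : K ⥤ C} (f : G ⟶ T) (g : H ⟶ T) (h : α ≫ f = β ≫ g) (X : K) :
    (inl α β).app X ≫ (desc f g h).app X = f.app X :=
  inl_objDesc _ _ _

@[reassoc (attr := simp)]
theorem inr_desc_app {T : K ⥤ C} (f : G ⟶ T) (g : H ⟶ T) (h : α ≫ f = β ≫ g) (X : K) :
    (inr α β).app X ≫ (desc f g h).app X = g.app X :=
  inr_objDesc _ _ _

@[reassoc (attr := simp)]
theorem inl_desc {T : K ⥤ C} (f : G ⟶ T) (g : H ⟶ T) (h : α ≫ f = β ≫ g) :
    inl α β ≫ desc f g h = f := by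
  ext X
  exact inl_desc_app _ _ _ X

@[reassoc (attr := simp)]
theorem inr_desc {T : K ⥤ C} (f : G ⟶ T) (g : H ⟶ T) (h : α ≫ f = β ≫ g) :
    inr α β ≫ desc f g h = g := by
  ext X
  exact inr_desc_app _ _ _ X

theorem hom_ext {T : K ⥤ C} {f g : po α β ⟶ T} (h₁ : inl α β ≫ f = inl α β ≫ g)
    (h₂ : inr α β ≫ f = inr α β ≫ g) : f = g := by
  ext X
  apply obj_hom_ext
  · exact congrArg (fun t => NatTrans.app t X) h₁
  · exact congrArg (fun t => NatTrans.app t X) h₂

end po

end po

open ZeroObject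

/-- The functor which is constant at the zero object. -/
noncomputable abbrev zeroFun (C : Type u) [Category.{v} C] [HasZeroObject C] : C ⥤ C :=
  (Functor.const C).obj (0 : C)

namespace CofCat

variable {C : Type u} [Category.{v} C] [HasZeroObject C] [HasZeroMorphisms C]
  [HasBinaryCoproducts C] [CofCat C]

instance hasPushout_i₁ (X : C) (T : C) (f : (𝟭 C).obj X ⟶ T) : HasPushout (i₁.app X) f :=
  hasPushout _ _ (cof_ι₁ X)

/-- The cone functor `Cone A = Cyl A / (A × 1)`. -/
noncomputable def Cone : C ⥤ C := po (i₁ : 𝟭 C ⟶ Cyl) (0 : 𝟭 C ⟶ zeroFun C)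

/-- The projection of the cylinder onto the cone. -/
noncomputable def cylCone : (Cyl : C ⥤ C) ⟶ Cone := po.inl _ _

/-- The inclusion `A ⟶ Cone A` of the base (the end `0` of the cylinder). -/
noncomputable def coneIncl : 𝟭 C ⟶ (Cone : C ⥤ C) := i₀ ≫ cylCone

/-- The inclusion `A ⟶ Cone A` of the base (the end `0` of the cylinder). -/
noncomputable def cin (X : C) : X ⟶ Cone.obj X := coneIncl.app X

@[reassoc]
theorem cin_naturality {X Y : C} (f : X ⟶ Y) : f ≫ cin Y = cin X ≫ Cone.map f :=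
  coneIncl.naturality f

@[reassoc (attr := simp)]
theorem ι₀_cylCone (X : C) : ι₀ X ≫ cylCone.app X = cin X := rfl

@[reassoc (attr := simp)]
theorem ι₁_cylCone (X : C) : ι₁ X ≫ cylCone.app X = 0 := by
  refine (po.condition_app (i₁ : 𝟭 C ⟶ Cyl) (0 : 𝟭 C ⟶ zeroFun C) X).trans ?_
  exact zero_comp

theorem isPushout_cylCone (X : C) :
    IsPushout (ι₁ X) (0 : X ⟶ (0 : C)) (cylCone.app X) (0 : (0 : C) ⟶ Cone.obj X) := by
  have h := po.isPushout_app (i₁ : 𝟭 C ⟶ Cyl) (0 : 𝟭 C ⟶ zeroFun C) X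
  have e : (po.inr (i₁ : 𝟭 C ⟶ Cyl) (0 : 𝟭 C ⟶ zeroFun C)).app X = 0 :=
    (isZero_zero C).eq_of_src _ _
  rw [e] at h
  exact h

theorem isPushout_cin (X : C) :
    IsPushout (ends X) (coprod.desc (𝟙 X) (0 : X ⟶ X)) (cylCone.app X) (cin X) := by
  refine ⟨⟨?_⟩, ⟨PushoutCocone.IsColimit.mk _
      (fun s => (isPushout_cylCone X).desc s.inl 0 ?_)
      (fun s => ?_) (fun s => ?_) (fun s m h₁ h₂ => ?_)⟩⟩
  · apply coprod.hom_ext <;> simp
  · have h : coprod.inr ≫ _ = coprod.inr ≫ _ := congrArg (coprod.inr ≫ ·) s.condition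
    simpa using h
  · exact (isPushout_cylCone X).inl_desc _ _ _
  · have h : coprod.inl ≫ _ = coprod.inl ≫ _ := congrArg (coprod.inl ≫ ·) s.condition
    rw [← ι₀_cylCone, Category.assoc, (isPushout_cylCone X).inl_desc]
    simpa using h
  · apply (isPushout_cylCone X).hom_ext
    · rw [h₁, (isPushout_cylCone X).inl_desc]
    · exact (isZero_zero C).eq_of_src _ _

/-- The inclusion of the base of the cone is a cofibration. -/
theorem cof_cin (X : C) : Cof (cin X) :=
  Cof_pushout (isPushout_cin X) (cof_ends X)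

theorem AC_zero_cone (X : C) : AC (0 : (0 : C) ⟶ Cone.obj X) :=
  (AC_ι₁ X).pushout (isPushout_cylCone X)

/-- Cones are weakly contractible. -/
theorem W_cone_zero (X : C) : W (0 : Cone.obj X ⟶ (0 : C)) := by
  refine W_of_comp_left (0 : (0 : C) ⟶ Cone.obj X) _ (AC_zero_cone X).w ?_
  have : IsIso ((0 : (0 : C) ⟶ Cone.obj X) ≫ (0 : Cone.obj X ⟶ (0 : C))) :=
    ⟨0, (isZero_zero C).eq_of_src _ _, (isZero_zero C).eq_of_src _ _⟩
  exact W_of_isIso _

instance hasPushout_coneIncl (X : C) (T : C) (f : (𝟭 C).obj X ⟶ T) :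
    HasPushout (coneIncl.app X) f :=
  hasPushout _ _ (cof_cin X)

/-- The suspension functor `Susp A = Cone A / A`. -/
noncomputable def Susp : C ⥤ C := po (coneIncl : 𝟭 C ⟶ Cone) (0 : 𝟭 C ⟶ zeroFun C)

/-- The projection `Cone A ⟶ Susp A`. -/
noncomputable def coneProj : (Cone : C ⥤ C) ⟶ Susp := po.inl _ _

/-- The projection `Cone A ⟶ Susp A`. -/
noncomputable def cpr (X : C) : Cone.obj X ⟶ Susp.obj X := coneProj.app X

@[reassoc]
theorem cpr_naturality {X Y : C} (f : X ⟶ Y) : Cone.map f ≫ cpr Y = cpr X ≫ Susp.map f :=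
  coneProj.naturality f

@[reassoc (attr := simp)]
theorem cin_cpr (X : C) : cin X ≫ cpr X = 0 := by
  refine (po.condition_app (coneIncl : 𝟭 C ⟶ Cone) (0 : 𝟭 C ⟶ zeroFun C) X).trans ?_
  exact zero_comp

theorem isPushout_cpr (X : C) :
    IsPushout (cin X) (0 : X ⟶ (0 : C)) (cpr X) (0 : (0 : C) ⟶ Susp.obj X) := by
  have h := po.isPushout_app (coneIncl : 𝟭 C ⟶ Cone) (0 : 𝟭 C ⟶ zeroFun C) X
  have e : (po.inr (coneIncl : 𝟭 C ⟶ Cone) (0 : 𝟭 C ⟶ zeroFun C)).app X = 0 :=
    (isZero_zero C).eq_of_src _ _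
  rw [e] at h
  exact h

/-- Morphisms out of the suspension. -/
noncomputable def suspDesc {X T : C} (f : Cone.obj X ⟶ T) (h : cin X ≫ f = 0) :
    Susp.obj X ⟶ T :=
  (isPushout_cpr X).desc f 0 (by rw [h, comp_zero])

@[reassoc (attr := simp)]
theorem cpr_suspDesc {X T : C} (f : Cone.obj X ⟶ T) (h : cin X ≫ f = 0) :
    cpr X ≫ suspDesc f h = f :=
  (isPushout_cpr X).inl_desc _ _ _

theorem susp_hom_ext {X T : C} {f g : Susp.obj X ⟶ T} (h : cpr X ≫ f = cpr X ≫ g) : f = g :=
  (isPushout_cpr X).hom_ext h ((isZero_zero C).eq_of_src _ _)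

end CofCat

end Vale.Agent.P251.H
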