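import Mathlib.CategoryTheory.MorphismProperty.Composition
import Mathlib.CategoryTheory.MorphismProperty.Limits
import Mathlib.CategoryTheory.Limits.Shapes.ZeroMorphisms
import Mathlib.CategoryTheory.Limits.Shapes.Pullback.IsPullback.Basic
import Mathlib.CategoryTheory.Limits.Shapes.BinaryProducts

/-!
# P251, part H: cofibration categories with functorial cylinders

`CofCat C` : a pointed category `C` with cofibrations `Cof` and weak equivalences `W` in which every
object is cofibrant, together with a functorial cylinder.  This is all that is needed (with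
invertible suspension) to triangulate the localization `C[W⁻¹]`.
-/

open CategoryTheory Limits

universe w v u

namespace Vale.Agent.P251.H

/-- A pointed cofibration category (all objects cofibrant) with a functorial cylinder. -/
class CofCat (C : Type u) [Category.{v} C] [HasZeroObject C] [HasZeroMorphisms C]
    [HasBinaryCoproducts C] where
  /-- weak equivalences -/
  W : MorphismProperty C
  /-- cofibrations -/
  Cof : MorphismProperty C
  W_of_isIso {X Y : C} (f : X ⟶ Y) [IsIso f] : W f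
  Cof_of_isIso {X Y : C} (f : X ⟶ Y) [IsIso f] : Cof f
  W_comp {X Y Z : C} (f : X ⟶ Y) (g : Y ⟶ Z) : W f → W g → W (f ≫ g)
  W_of_comp_left {X Y Z : C} (f : X ⟶ Y) (g : Y ⟶ Z) : W f → W (f ≫ g) → W g
  W_of_comp_right {X Y Z : C} (f : X ⟶ Y) (g : Y ⟶ Z) : W g → W (f ≫ g) → W f
  Cof_comp {X Y Z : C} (f : X ⟶ Y) (g : Y ⟶ Z) : Cof f → Cof g → Cof (f ≫ g)
  /-- all objects are cofibrant -/
  Cof_zero {Z : C} (hZ : IsZero Z) {X : C} (f : Z ⟶ X) : Cof f
  /-- pushouts along cofibrations exist -/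
  hasPushout {A B X : C} (i : A ⟶ B) (f : A ⟶ X) : Cof i → HasPushout i f
  /-- cofibrations are stable under cobase change -/
  Cof_pushout {A B X P : C} {i : A ⟶ B} {f : A ⟶ X} {j : B ⟶ P} {k : X ⟶ P} :
    IsPushout i f j k → Cof i → Cof k
  /-- acyclic cofibrations are stable under cobase change -/
  W_pushout {A B X P : C} {i : A ⟶ B} {f : A ⟶ X} {j : B ⟶ P} {k : X ⟶ P} :
    IsPushout i f j k → Cof i → W i → W k
  /-- the cylinder functor -/
  Cyl : C ⥤ C
  i₀ : 𝟭 C ⟶ Cyl
  i₁ : 𝟭 C ⟶ Cyl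
  π : Cyl ⟶ 𝟭 C
  i₀_π (X : C) : i₀.app X ≫ π.app X = 𝟙 X
  i₁_π (X : C) : i₁.app X ≫ π.app X = 𝟙 X
  W_π (X : C) : W (π.app X)
  /-- the inclusion of the two ends is a cofibration -/
  Cof_ends (X : C) : Cof (coprod.desc (i₀.app X) (i₁.app X))
  /-- for a cofibration `j : A ⟶ B` the map `B ∪_A Cyl A ∪_A B ⟶ Cyl B` is a cofibration -/
  Cof_pushoutProduct {A B P : C} (j : A ⟶ B) (a : B ⨿ B ⟶ P) (b : Cyl.obj A ⟶ P)
    (d : P ⟶ Cyl.obj B) :
    Cof j → IsPushout (coprod.map j j) (coprod.desc (i₀.app A) (i₁.app A)) a b →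
      a ≫ d = coprod.desc (i₀.app B) (i₁.app B) → b ≫ d = Cyl.map j → Cof d

end Vale.Agent.P251.H
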