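import Vale.Agent.P251.H.Cof.Glue
import Vale.Agent.P251.H.Cof.Calc
import Mathlib.CategoryTheory.Limits.Preserves.Shapes.Products

/-!
# P251, part H: coproducts and the zero object in the localization of a cofibration category

Main results, for `L : C ⥤ D` a localization functor for `W`:
* `isZero_map L h : IsZero (L.obj Z)` for `Z` a zero object;
* `preservesCoproducts L J : PreservesColimitsOfShape (Discrete J) L` as soon as `C` has
  coproducts indexed by `J` which preserve `W` and `Cof` (class `CofCoproducts C J`);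
* the case of binary coproducts, `preservesBinaryCoproducts`, which needs no hypothesis;
* `hasBinaryCoproducts L : HasBinaryCoproducts D`, `hasCoproductsOfShape L J`.
-/

open CategoryTheory Limits

universe w v u v' u'

attribute [local simp] coprod.inl_desc coprod.inr_desc coprod.inl_desc_assoc coprod.inr_desc_assoc

namespace Vale.Agent.P251.H

namespace CofCat

variable {C : Type u} [Category.{v} C] [HasZeroObject C] [HasZeroMorphisms C]
  [HasBinaryCoproducts C] [CofCat C]

variable (C) in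
/-- Coproducts indexed by `J` exist in `C` and preserve weak equivalences and cofibrations. -/
class CofCoproducts (J : Type w) [HasCoproductsOfShape J C] : Prop where
  W_map : ∀ {X Y : J → C} (f : ∀ j, X j ⟶ Y j), (∀ j, W (f j)) → W (Limits.Sigma.map f)
  Cof_map : ∀ {X Y : J → C} (f : ∀ j, X j ⟶ Y j), (∀ j, Cof (f j)) → Cof (Limits.Sigma.map f)

section

variable {J : Type w} [HasCoproductsOfShape J C] [CofCoproducts C J]

lemma AC.sigmaMap {X Y : J → C} {f : ∀ j, X j ⟶ Y j} (hf : ∀ j, AC (f j)) :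
    AC (Limits.Sigma.map f) :=
  ⟨CofCoproducts.Cof_map f fun j => (hf j).cof, CofCoproducts.W_map f fun j => (hf j).w⟩

/-- common denominators for families of acyclic cofibrations -/
lemma exists_common {Y : C} {Y' : J → C} (s : ∀ j, Y ⟶ Y' j) (hs : ∀ j, AC (s j)) :
    ∃ (Z : C) (t : Y ⟶ Z) (u : ∀ j, Y' j ⟶ Z), AC t ∧ ∀ j, s j ≫ u j = t := by
  have h1 : AC (Limits.Sigma.map s) := AC.sigmaMap hs
  obtain ⟨Z, a, b, h⟩ := exists_pushout (Limits.Sigma.map s)
    (Sigma.desc (fun _ : J => 𝟙 Y)) h1.cof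
  refine ⟨Z, b, fun j => Sigma.ι Y' j ≫ a, h1.pushout h, fun j => ?_⟩
  have := Sigma.ι (fun _ : J => Y) j ≫= h.w
  simpa using this

end

/-- coproducts indexed by `WalkingPair` -/
noncomputable def sigmaPairIso (X : WalkingPair → C) : ∐ X ≅ X .left ⨿ X .right where
  hom := Sigma.desc (fun j => WalkingPair.casesOn j coprod.inl coprod.inr)
  inv := coprod.desc (Sigma.ι X _) (Sigma.ι X _)
  hom_inv_id := by
    apply Sigma.hom_ext
    rintro (_ | _) <;> simp
  inv_hom_id := by
    apply coprod.hom_ext <;> simp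

omit [HasZeroObject C] [HasZeroMorphisms C] [CofCat C] in
lemma sigmaPairIso_map {X Y : WalkingPair → C} (f : ∀ j, X j ⟶ Y j) :
    Limits.Sigma.map f =
      (sigmaPairIso X).hom ≫ coprod.map (f .left) (f .right) ≫ (sigmaPairIso Y).inv := by
  apply Sigma.hom_ext
  rintro (_ | _) <;> simp [sigmaPairIso]

instance : CofCoproducts C WalkingPair := by
  refine ⟨fun f hf => ?_, fun f hf => ?_⟩
  · rw [sigmaPairIso_map f]
    exact W_comp _ _ (W_of_isIso _) (W_comp _ _ (W_coprod_map (hf _) (hf _)) (W_of_isIso _))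
  · rw [sigmaPairIso_map f]
    exact Cof_comp _ _ (Cof_of_isIso _)
      (Cof_comp _ _ (Cof.coprodMap (hf _) (hf _)) (Cof_of_isIso _))

section

variable {D : Type u'} [Category.{v'} D] (L : C ⥤ D) [L.IsLocalization (W (C := C))]

/-- Two morphisms in `D` have a common denominator. -/
lemma exists_fraction₂ {X₁ X₂ Y : C} (φ₁ : L.obj X₁ ⟶ L.obj Y) (φ₂ : L.obj X₂ ⟶ L.obj Y) :
    ∃ (Y' : C) (f₁ : X₁ ⟶ Y') (f₂ : X₂ ⟶ Y') (s : Y ⟶ Y'), AC s ∧
      φ₁ ≫ L.map s = L.map f₁ ∧ φ₂ ≫ L.map s = L.map f₂ := by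
  obtain ⟨Y₁, f₁, s₁, hs₁, h₁⟩ := exists_fraction L φ₁
  obtain ⟨Y₂, f₂, s₂, hs₂, h₂⟩ := exists_fraction L φ₂
  obtain ⟨Z, a, b, h⟩ := exists_pushout s₁ s₂ hs₁.cof
  refine ⟨Z, f₁ ≫ a, f₂ ≫ b, s₁ ≫ a, hs₁.comp (hs₂.pushout h.flip), ?_, ?_⟩
  · rw [L.map_comp, reassoc_of% h₁, L.map_comp]
  · rw [h.w, L.map_comp, reassoc_of% h₂, L.map_comp]

/-- `L` maps zero objects to zero objects. -/
lemma isZero_map {Z : C} (hZ : IsZero Z) : IsZero (L.obj Z) := by
  have hes := Localization.essSurj L (W (C := C))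
  have key₁ : ∀ (Y : C) (φ ψ : L.obj Z ⟶ L.obj Y), φ = ψ := by
    intro Y φ ψ
    obtain ⟨Y', f, g, s, hs, hf, hg⟩ := exists_fraction₂ L φ ψ
    have := isIso_map L hs.w
    rw [← cancel_mono (L.map s), hf, hg, hZ.eq_of_src f g]
  have key₂ : ∀ (Y : C) (φ : L.obj Y ⟶ L.obj Z), φ = L.map (hZ.from_ Y) := by
    intro Y φ
    obtain ⟨Y', f, s, hs, hf⟩ := exists_fraction L φ
    have e : s ≫ hZ.from_ Y' = 𝟙 Z := hZ.eq_of_src _ _
    have e' : f ≫ hZ.from_ Y' = hZ.from_ Y := hZ.eq_of_tgt _ _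
    calc φ = φ ≫ L.map (s ≫ hZ.from_ Y') := by rw [e, L.map_id, Category.comp_id]
      _ = L.map (hZ.from_ Y) := by rw [L.map_comp, reassoc_of% hf, ← L.map_comp, e']
  refine ⟨fun Y => ⟨⟨⟨L.map (hZ.to_ (L.objPreimage Y)) ≫ (L.objObjPreimageIso Y).hom⟩,
    fun φ => ?_⟩⟩, fun Y => ⟨⟨⟨(L.objObjPreimageIso Y).inv ≫ L.map (hZ.from_ (L.objPreimage Y))⟩,
    fun φ => ?_⟩⟩⟩
  · rw [← cancel_mono (L.objObjPreimageIso Y).inv]
    exact key₁ _ _ _
  · rw [← cancel_epi (L.objObjPreimageIso Y).hom]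
    exact (key₂ _ _).trans (key₂ _ _).symm

include L in
lemma hasZeroObject : HasZeroObject D := ⟨_, isZero_map L (isZero_zero C)⟩

section

variable {J : Type w} [HasCoproductsOfShape J C] [CofCoproducts C J]

lemma exists_desc {X : J → C} {Z : D} (φ : ∀ j, L.obj (X j) ⟶ Z) :
    ∃ ψ : L.obj (∐ X) ⟶ Z, ∀ j, L.map (Sigma.ι X j) ≫ ψ = φ j := by
  have hes := Localization.essSurj L (W (C := C))
  have key : ∀ {Y : C} (φ : ∀ j, L.obj (X j) ⟶ L.obj Y),
      ∃ ψ : L.obj (∐ X) ⟶ L.obj Y, ∀ j, L.map (Sigma.ι X j) ≫ ψ = φ j := by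
    intro Y φ
    choose Y' f s hs hf using fun j => exists_fraction L (φ j)
    obtain ⟨Z, t, u, ht, hu⟩ := exists_common s hs
    have := isIso_map L ht.w
    refine ⟨L.map (Sigma.desc (fun j => f j ≫ u j)) ≫ inv (L.map t), fun j => ?_⟩
    rw [← cancel_mono (L.map t), Category.assoc, Category.assoc, IsIso.inv_hom_id,
      Category.comp_id, ← L.map_comp, Sigma.ι_desc, L.map_comp, ← hf j, Category.assoc,
      ← L.map_comp, hu]
  obtain ⟨ψ, hψ⟩ := key (fun j => φ j ≫ (L.objObjPreimageIso Z).inv)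
  refine ⟨ψ ≫ (L.objObjPreimageIso Z).hom, fun j => ?_⟩
  rw [reassoc_of% hψ j]
  simp

lemma desc_unique {X : J → C} {Z : D} (φ ψ : L.obj (∐ X) ⟶ Z)
    (h : ∀ j, L.map (Sigma.ι X j) ≫ φ = L.map (Sigma.ι X j) ≫ ψ) : φ = ψ := by
  have hes := Localization.essSurj L (W (C := C))
  have key : ∀ {Y : C} (φ ψ : L.obj (∐ X) ⟶ L.obj Y)
      (_ : ∀ j, L.map (Sigma.ι X j) ≫ φ = L.map (Sigma.ι X j) ≫ ψ), φ = ψ := by
    intro Y φ ψ h
    obtain ⟨Y', f, g, s, hs, hf, hg⟩ := exists_fraction₂ L φ ψ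
    have := isIso_map L hs.w
    rw [← cancel_mono (L.map s), hf, hg, map_eq_iff L]
    have h' : ∀ j, R (Sigma.ι X j ≫ f) (Sigma.ι X j ≫ g) := by
      intro j
      rw [← map_eq_iff L, L.map_comp, L.map_comp, ← hf, ← hg, ← Category.assoc, h j,
        Category.assoc]
    choose Y'' t ht H h₀ h₁ using h'
    obtain ⟨Z, t', u, ht', hu⟩ := exists_common t ht
    apply R.of_comp_AC ht'
    have hR := R.of_cylinder (Limits.Sigma.map fun j => ι₀ (X j))
      (Limits.Sigma.map fun j => ι₁ (X j))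
      (Limits.Sigma.map fun j => pr (X j)) (Sigma.desc fun j => H j ≫ u j)
      (by apply Sigma.hom_ext; simp) (by apply Sigma.hom_ext; simp)
      (CofCoproducts.W_map _ fun j => W_pr _)
    convert hR using 1
    · apply Sigma.hom_ext
      intro j
      rw [Limits.Sigma.ι_map_assoc, Sigma.ι_desc, reassoc_of% h₀ j, hu]
    · apply Sigma.hom_ext
      intro j
      rw [Limits.Sigma.ι_map_assoc, Sigma.ι_desc, reassoc_of% h₁ j, hu]
  rw [← cancel_mono (L.objObjPreimageIso Z).inv]
  apply key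
  intro j
  rw [← Category.assoc, h j, Category.assoc]

/-- The image under `L` of a coproduct cofan is a colimit. -/
noncomputable def isColimitMapSigma (X : J → C) :
    IsColimit (Cofan.mk (L.obj (∐ X)) fun j => L.map (Sigma.ι X j)) :=
  Cofan.IsColimit.mk _ (fun s => (exists_desc L s.inj).choose)
    (fun s j => (exists_desc L s.inj).choose_spec j)
    (fun s _ hm => desc_unique L _ _ fun j =>
      (hm j).trans ((exists_desc L s.inj).choose_spec j).symm)

variable (J) in
theorem preservesCoproducts : PreservesColimitsOfShape (Discrete J) L := by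
  have : ∀ X : J → C, PreservesColimit (Discrete.functor X) L := fun X =>
    preservesColimit_of_preserves_colimit_cocone (coproductIsCoproduct X)
      ((isColimitMapCoconeCofanMkEquiv L X (Sigma.ι X)).symm (isColimitMapSigma L X))
  exact preservesColimitsOfShape_of_discrete L

end

theorem preservesBinaryCoproducts : PreservesColimitsOfShape (Discrete WalkingPair) L :=
  preservesCoproducts L WalkingPair

section

variable (J : Type w) [HasCoproductsOfShape J C] [CofCoproducts C J]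

include L in
theorem hasCoproductsOfShape : HasCoproductsOfShape J D := by
  have hes := Localization.essSurj L (W (C := C))
  have := preservesCoproducts L J
  have : ∀ (X : J → D), HasColimit (Discrete.functor X) := by
    intro X
    let F : Discrete J ⥤ C := Discrete.functor (fun j => L.objPreimage (X j))
    let e : Discrete.functor X ≅ F ⋙ L :=
      Discrete.natIso (fun j => (L.objObjPreimageIso (X j.as)).symm)
    exact hasColimit_of_iso e
  exact ⟨fun F => hasColimit_of_iso (Discrete.natIsoFunctor (F := F))⟩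

end

include L in
theorem hasBinaryCoproducts : HasBinaryCoproducts D := hasCoproductsOfShape L WalkingPair

end

end CofCat

end Vale.Agent.P251.H
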