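import Vale.Agent.P251.H.Cof.Tri1

/-!
# P251, part H: mapping cone triangles are distinguished
-/

open CategoryTheory Limits Category Pretriangulated ZeroObject

universe w v u v' u'

namespace Vale.Agent.P251.H

open CofCat

variable {C : Type u} [Category.{v} C] [HasZeroObject C] [HasZeroMorphisms C]
  [HasBinaryCoproducts C] [CofCat C] {D : Type u'} [Category.{v'} D] {L : C ⥤ D}
  [L.IsLocalization (CofCat.W (C := C))] [HasShift D ℤ]

/-- The mapping cone triangle of *any* morphism `f` of `C` is distinguished. -/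
theorem mappingCone_mem_dist (τ : Susp ⋙ L ≅ L ⋙ shiftFunctor D (1 : ℤ)) {A B P : C} {f : A ⟶ B}
    {a : B ⟶ P} {b : Cone.obj A ⟶ P} {d : P ⟶ Susp.obj A} (hP : IsPushout f (cin A) a b)
    (h₁ : a ≫ d = 0) (h₂ : b ≫ d = cpr A) :
    Triangle.mk (L.map f) (L.map a) (L.map d ≫ τ.hom.app A) ∈ dist τ := by
  obtain ⟨M, j, r, k, hj, hr, hk, hjr, hkr⟩ := exists_factor f
  obtain ⟨Q, q, z, hQ⟩ := exists_pushout j (0 : A ⟶ (0 : C)) hj
  obtain rfl : z = 0 := (isZero_zero C).eq_of_src _ _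
  obtain ⟨δ, hδ⟩ := exists_isConn τ hj hQ
  obtain ⟨P', a', b', r', d', hP', h1', h2', h3', h4', h5'⟩ := hδ.exists_conn
  have hr' := W_collapse hj hQ hP' h1' h2'
  let p : P' ⟶ P := hP'.desc (r ≫ a) b (by rw [← hP.w, reassoc_of% hjr])
  have hp₁ : a' ≫ p = r ≫ a := hP'.inl_desc _ _ _
  have hp₂ : b' ≫ p = b := hP'.inr_desc _ _ _
  have hpd : p ≫ d = d' := by
    apply hP'.hom_ext
    · rw [reassoc_of% hp₁, h₁, comp_zero, h3']
    · rw [reassoc_of% hp₂, h₂, h4']
  have hp : W p :=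
    gluing hP'.flip hP.flip (cof_cin A) (cof_cin A) (W_id A) (W_id _) hr
      (by rw [Category.comp_id, Category.id_comp]) (by rw [hjr, Category.id_comp]) p
      (by rw [hp₂, Category.id_comp]) hp₁
  have i₁ := isIso_map L hr
  have i₂ := isIso_map L hp
  have i₃ := isIso_map L hr'
  refine dist_of_exists hδ (Iso.refl _) (@asIso _ _ _ _ (L.map r) i₁).symm
    ((@asIso _ _ _ _ (L.map p) i₂).symm ≪≫ (@asIso _ _ _ _ (L.map r') i₃)) ?_ ?_ ?_
  · change L.map f ≫ inv (L.map r) = 𝟙 _ ≫ L.map j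
    rw [IsIso.comp_inv_eq, Category.id_comp, ← L.map_comp, hjr]
  · change L.map a ≫ inv (L.map p) ≫ L.map r' = inv (L.map r) ≫ L.map q
    rw [← cancel_epi (L.map r), IsIso.hom_inv_id_assoc, ← L.map_comp_assoc, ← hp₁,
      L.map_comp_assoc, IsIso.hom_inv_id_assoc, ← L.map_comp, h1']
  · change (L.map d ≫ τ.hom.app A) ≫ (𝟙 (L.obj A))⟦(1 : ℤ)⟧' =
      (inv (L.map p) ≫ L.map r') ≫ δ
    rw [CategoryTheory.Functor.map_id, Category.assoc (inv (L.map p)), h5', ← hpd, L.map_comp,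
      Category.assoc (L.map p), IsIso.inv_hom_id_assoc]
    exact Category.comp_id _

end Vale.Agent.P251.H
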