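import Vale.Agent.P251.H.Cof.LocCoprod

/-!
# P251, part H: strictification of squares and composable pairs in the localization of a
cofibration category
-/

open CategoryTheory Limits

universe w v u v' u'

namespace Vale.Agent.P251.H

namespace CofCat

variable {C : Type u} [Category.{v} C] [HasZeroObject C] [HasZeroMorphisms C]
  [HasBinaryCoproducts C] [CofCat C]
variable {D : Type u'} [Category.{v'} D] (L : C ⥤ D) [L.IsLocalization (W (C := C))]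

/-- Every morphism of `D` is a fraction `L(s)⁻¹ ∘ L(f)` with `f` a cofibration and `s` an
acyclic cofibration. -/
lemma exists_cof_fraction {X Y : C} (φ : L.obj X ⟶ L.obj Y) :
    ∃ (Y' : C) (f : X ⟶ Y') (s : Y ⟶ Y'), Cof f ∧ AC s ∧ φ ≫ L.map s = L.map f := by
  obtain ⟨Y₁, f₁, s₁, hs₁, h₁⟩ := exists_fraction L φ
  obtain ⟨M, j, r, k, hj, hr, hk, hjr, hkr⟩ := exists_factor f₁
  refine ⟨M, j, s₁ ≫ k, hj, hs₁.comp hk, ?_⟩
  have := isIso_map L hr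
  rw [← cancel_mono (L.map r), L.map_comp, reassoc_of% h₁, ← L.map_comp, ← L.map_comp,
    Category.assoc, hkr, Category.comp_id, ← L.map_comp, hjr]

/-- Every composable pair of morphisms of `D` is isomorphic to the image of a composable pair of
cofibrations. -/
lemma exists_strict_pair {X₁ X₂ X₃ : C} (φ : L.obj X₁ ⟶ L.obj X₂) (ψ : L.obj X₂ ⟶ L.obj X₃) :
    ∃ (X₂' X₃' : C) (f : X₁ ⟶ X₂') (g : X₂' ⟶ X₃') (s : X₂ ⟶ X₂') (t : X₃ ⟶ X₃'),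
      Cof f ∧ Cof g ∧ AC s ∧ AC t ∧ φ ≫ L.map s = L.map f ∧
      ψ ≫ L.map t = L.map s ≫ L.map g := by
  obtain ⟨X₂', f, s, hf, hs, h₁⟩ := exists_cof_fraction L φ
  have := isIso_map L hs.w
  obtain ⟨X₃', g, t, hg, ht, h₂⟩ := exists_cof_fraction L (inv (L.map s) ≫ ψ)
  refine ⟨X₂', X₃', f, g, s, t, hf, hg, hs, ht, h₁, ?_⟩
  rw [← h₂, Category.assoc, IsIso.hom_inv_id_assoc]

/-- **Strictification of squares.** A commutative square of `D` from (the image of) a cofibration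
`f₁` to (the image of) a morphism `f₂` is the image of a strict square, after replacing `f₂` along
acyclic cofibrations. -/
lemma exists_strict_square {X₁ Y₁ X₂ Y₂ : C} {f₁ : X₁ ⟶ Y₁} (hf₁ : Cof f₁) (f₂ : X₂ ⟶ Y₂)
    (a : L.obj X₁ ⟶ L.obj X₂) (b : L.obj Y₁ ⟶ L.obj Y₂)
    (comm : L.map f₁ ≫ b = a ≫ L.map f₂) :
    ∃ (X₂' Y₂' : C) (s : X₂ ⟶ X₂') (t : Y₂ ⟶ Y₂') (f₂' : X₂' ⟶ Y₂') (a₀ : X₁ ⟶ X₂')
      (b₀ : Y₁ ⟶ Y₂'), AC s ∧ AC t ∧ (Cof f₂ → Cof f₂') ∧ f₂ ≫ t = s ≫ f₂' ∧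
      f₁ ≫ b₀ = a₀ ≫ f₂' ∧ a ≫ L.map s = L.map a₀ ∧ b ≫ L.map t = L.map b₀ := by
  obtain ⟨X₂', a₀, s, hs, ha⟩ := exists_fraction L a
  obtain ⟨Q, p, g, hQ⟩ := exists_pushout s f₂ hs.cof
  have hg : AC g := hs.pushout hQ
  have hp : Cof f₂ → Cof p := fun h => Cof_pushout hQ.flip h
  obtain ⟨Y', b₁, t₁, ht₁, hb⟩ := exists_fraction L (b ≫ L.map g)
  have key : R (f₁ ≫ b₁) (a₀ ≫ p ≫ t₁) := by
    rw [← map_eq_iff L, L.map_comp, ← hb, L.map_comp, ← ha, L.map_comp]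
    have e := congrArg L.map hQ.w
    rw [L.map_comp, L.map_comp] at e
    rw [Category.assoc, Category.assoc, reassoc_of% comm, reassoc_of% e]
  obtain ⟨Y'', t₂, ht₂, H, h₀, h₁⟩ := key
  obtain ⟨P, u, v, hP⟩ := exists_pushout (ι₀ X₁) f₁ (cof_ι₀ X₁)
  let d : P ⟶ Cyl.obj Y₁ := hP.desc (Cyl.map f₁) (ι₀ Y₁) (ι₀_map f₁)
  have hud : u ≫ d = Cyl.map f₁ := hP.inl_desc _ _ _
  have hvd : v ≫ d = ι₀ Y₁ := hP.inr_desc _ _ _
  have hd : AC d := AC_hep hf₁ hP d hvd hud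
  let k : P ⟶ Y'' := hP.desc H (b₁ ≫ t₂) (by rw [h₀, Category.assoc])
  have huk : u ≫ k = H := hP.inl_desc _ _ _
  have hvk : v ≫ k = b₁ ≫ t₂ := hP.inr_desc _ _ _
  obtain ⟨Z, w, t₃, hZ⟩ := exists_pushout d k hd.cof
  have ht₃ : AC t₃ := hd.pushout hZ
  have hT : AC (t₁ ≫ t₂ ≫ t₃) := ht₁.comp (ht₂.comp ht₃)
  refine ⟨X₂', Z, s, g ≫ t₁ ≫ t₂ ≫ t₃, p ≫ t₁ ≫ t₂ ≫ t₃, a₀, ι₁ Y₁ ≫ w, hs, hg.comp hT,
    fun h => Cof_comp _ _ (hp h) hT.cof, ?_, ?_, ha, ?_⟩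
  · rw [← Category.assoc, ← hQ.w, Category.assoc]
  · rw [← ι₁_map_assoc, ← hud, Category.assoc, hZ.w, reassoc_of% huk, reassoc_of% h₁]
  · have e₁ : L.map (ι₁ Y₁ ≫ w) = L.map (ι₀ Y₁ ≫ w) :=
      (map_eq_of_Htpy L ⟨w, rfl, rfl⟩).symm
    rw [e₁, ← hvd, Category.assoc, hZ.w, reassoc_of% hvk, L.map_comp, L.map_comp,
      reassoc_of% hb, ← L.map_comp]

end CofCat

end Vale.Agent.P251.H
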