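import Mathlib.CategoryTheory.Triangulated.Triangulated
import Mathlib.CategoryTheory.Triangulated.Pretriangulated
import Mathlib.CategoryTheory.Triangulated.Rotate

/-!
# P251, part H: pretriangulated structures from one-sided rotation

`TriData dist` : the class `dist` of triangles satisfies all the axioms of a pretriangulated
category, where only the forward rotation of distinguished triangles is required to be
distinguished. We deduce the backward rotation (five lemma), so that `D` is pretriangulated.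
-/

open CategoryTheory Limits Pretriangulated

universe v u

set_option linter.unusedSectionVars false

namespace Vale.Agent.P251.H

variable (D : Type u) [Category.{v} D] [Preadditive D] [HasZeroObject D] [HasShift D ℤ]
  [∀ n : ℤ, (shiftFunctor D n).Additive]

variable {D} in
/-- A class of triangles satisfying the axioms of a pretriangulated category, except for the
backward rotation. -/
structure TriData (dist : Set (Triangle D)) : Prop where
  iso : ∀ T₁ ∈ dist, ∀ T₂ : Triangle D, (T₂ ≅ T₁) → T₂ ∈ dist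
  contractible : ∀ X : D, contractibleTriangle X ∈ dist
  cocone : ∀ {X Y : D} (f : X ⟶ Y),
    ∃ (Z : D) (g : Y ⟶ Z) (h : Z ⟶ X⟦(1 : ℤ)⟧), Triangle.mk f g h ∈ dist
  rotate : ∀ T ∈ dist, T.rotate ∈ dist
  complete : ∀ (T₁ T₂ : Triangle D) (_ : T₁ ∈ dist) (_ : T₂ ∈ dist)
    (a : T₁.obj₁ ⟶ T₂.obj₁) (b : T₁.obj₂ ⟶ T₂.obj₂) (_ : T₁.mor₁ ≫ b = a ≫ T₂.mor₁),
    ∃ c : T₁.obj₃ ⟶ T₂.obj₃, T₁.mor₂ ≫ c = b ≫ T₂.mor₂ ∧ T₁.mor₃ ≫ a⟦1⟧' = c ≫ T₂.mor₃

variable {D}

namespace TriData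

open ZeroObject

variable {dist : Set (Triangle D)} (P : TriData dist)

section

include P

variable {X Y Z X' Y' Z' W : D} {f : X ⟶ Y} {g : Y ⟶ Z} {h : Z ⟶ X⟦(1 : ℤ)⟧} {f' : X' ⟶ Y'}
  {g' : Y' ⟶ Z'} {h' : Z' ⟶ X'⟦(1 : ℤ)⟧}

theorem completeMk (hT : Triangle.mk f g h ∈ dist) (hT' : Triangle.mk f' g' h' ∈ dist)
    (a : X ⟶ X') (b : Y ⟶ Y') (comm : f ≫ b = a ≫ f') :
    ∃ c : Z ⟶ Z', g ≫ c = b ≫ g' ∧ h ≫ a⟦(1 : ℤ)⟧' = c ≫ h' :=
  P.complete _ _ hT hT' a b comm

theorem rotateMk (hT : Triangle.mk f g h ∈ dist) :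
    Triangle.mk g h (-f⟦(1 : ℤ)⟧') ∈ dist :=
  P.rotate _ hT

theorem contractibleMk (X : D) : Triangle.mk (𝟙 X) (0 : X ⟶ 0) (0 : 0 ⟶ X⟦(1 : ℤ)⟧) ∈ dist :=
  P.contractible X

theorem comp₁₂ (hT : Triangle.mk f g h ∈ dist) : f ≫ g = 0 := by
  obtain ⟨c, hc, -⟩ := P.completeMk (P.contractibleMk X) hT (𝟙 X) f rfl
  rw [← hc, zero_comp]

theorem coyoneda₂ (hT : Triangle.mk f g h ∈ dist) (t : W ⟶ Y) (ht : t ≫ g = 0) :
    ∃ s : W ⟶ X, t = s ≫ f := by
  obtain ⟨c, -, hc⟩ := P.completeMk (P.rotateMk (P.contractibleMk W)) (P.rotateMk hT) t 0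
    (by rw [ht, comp_zero])
  obtain ⟨s, rfl⟩ := (shiftFunctor D (1 : ℤ)).map_surjective c
  refine ⟨s, (shiftFunctor D (1 : ℤ)).map_injective ?_⟩
  rw [CategoryTheory.Functor.map_id, Preadditive.neg_comp, Category.id_comp,
    Preadditive.comp_neg, neg_inj] at hc
  rw [hc, Functor.map_comp]

theorem coyoneda₃ (hT : Triangle.mk f g h ∈ dist) (t : W ⟶ Z) (ht : t ≫ h = 0) :
    ∃ s : W ⟶ Y, t = s ≫ g :=
  P.coyoneda₂ (P.rotateMk hT) t ht

/-- An endomorphism of a distinguished triangle which is the identity on the first two objects is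
an isomorphism on the third one. -/
theorem isIso_of_id (hT : Triangle.mk f g h ∈ dist) (θ : Z ⟶ Z)
    (h₂ : g ≫ θ = g) (h₃ : θ ≫ h = h) : IsIso θ := by
  obtain ⟨u, hu⟩ := P.coyoneda₃ hT (θ - 𝟙 _) (by
    rw [Preadditive.sub_comp, h₃, Category.id_comp, sub_self])
  have h0 : (θ - 𝟙 _) ≫ (θ - 𝟙 _) = 0 := by
    conv_lhs => enter [1]; rw [hu]
    rw [Category.assoc, Preadditive.comp_sub, h₂, Category.comp_id, sub_self, comp_zero]
  have h1 : θ = 𝟙 _ + (θ - 𝟙 _) := by abel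
  generalize θ - 𝟙 _ = n at h0 h1
  refine ⟨𝟙 _ - n, ?_, ?_⟩
  · rw [h1, Preadditive.add_comp, Preadditive.comp_sub, Preadditive.comp_sub, h0]
    simp
  · rw [h1, Preadditive.comp_add, Preadditive.sub_comp, Preadditive.sub_comp, h0]
    simp

/-- The five lemma. -/
theorem isIso₃ (hT : Triangle.mk f g h ∈ dist) (hT' : Triangle.mk f' g' h' ∈ dist)
    (a : X ⟶ X') (b : Y ⟶ Y') (c : Z ⟶ Z') (c₁ : f ≫ b = a ≫ f') (c₂ : g ≫ c = b ≫ g')
    (c₃ : h ≫ a⟦(1 : ℤ)⟧' = c ≫ h') [IsIso a] [IsIso b] : IsIso c := by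
  obtain ⟨d, h₂, h₃⟩ := P.completeMk hT' hT (inv a) (inv b) (by
    rw [IsIso.comp_inv_eq, Category.assoc, c₁, IsIso.inv_hom_id_assoc])
  have i₁ : IsIso (c ≫ d) := by
    refine P.isIso_of_id hT _ ?_ ?_
    · rw [← Category.assoc, c₂, Category.assoc, h₂, IsIso.hom_inv_id_assoc]
    · rw [Category.assoc, ← h₃, ← Category.assoc, ← c₃, Category.assoc, ← Functor.map_comp,
        IsIso.hom_inv_id, CategoryTheory.Functor.map_id, Category.comp_id]
  have i₂ : IsIso (d ≫ c) := by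
    refine P.isIso_of_id hT' _ ?_ ?_
    · rw [← Category.assoc, h₂, Category.assoc, c₂, IsIso.inv_hom_id_assoc]
    · rw [Category.assoc, ← c₃, ← Category.assoc, ← h₃, Category.assoc, ← Functor.map_comp,
        IsIso.inv_hom_id, CategoryTheory.Functor.map_id, Category.comp_id]
  have m : Mono c := mono_of_mono c d
  have e : IsSplitEpi c := ⟨⟨⟨inv (d ≫ c) ≫ d, by simp⟩⟩⟩
  exact isIso_of_mono_of_isSplitEpi c

/-- The backward rotation. -/
theorem mem_of_rotateMk (hT : Triangle.mk g h (-f⟦(1 : ℤ)⟧') ∈ dist) :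
    Triangle.mk f g h ∈ dist := by
  obtain ⟨Z', g', h', hT'⟩ := P.cocone f
  have r' := P.rotateMk (P.rotateMk (P.rotateMk hT'))
  have r := P.rotateMk (P.rotateMk hT)
  obtain ⟨c, h₂, h₃⟩ := P.completeMk r' r (𝟙 _) (𝟙 _) (by
    rw [Category.comp_id, Category.id_comp])
  have hi : IsIso c := P.isIso₃ r' r (𝟙 _) (𝟙 _) c (by
    rw [Category.comp_id, Category.id_comp]) h₂ h₃
  rw [Category.id_comp, Preadditive.neg_comp, neg_inj] at h₂
  rw [CategoryTheory.Functor.map_id, Category.comp_id, Preadditive.comp_neg, neg_inj] at h₃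
  obtain ⟨w, rfl⟩ := (shiftFunctor D (1 : ℤ)).map_surjective c
  have hw : IsIso w := isIso_of_reflects_iso w (shiftFunctor D (1 : ℤ))
  have e₂ : g' ≫ w = g := (shiftFunctor D (1 : ℤ)).map_injective (by
    rw [Functor.map_comp]; exact h₂)
  have e₃ : h' = w ≫ h := (shiftFunctor D (1 : ℤ)).map_injective (by
    rw [Functor.map_comp]; exact h₃)
  refine P.iso _ hT' _ (Triangle.isoMk (Triangle.mk f g h) (Triangle.mk f g' h')
    (Iso.refl X) (Iso.refl Y) (asIso w).symm ?_ ?_ ?_)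
  · exact (Category.comp_id f).trans (Category.id_comp f).symm
  · change g ≫ inv w = 𝟙 Y ≫ g'
    rw [IsIso.comp_inv_eq, Category.id_comp, e₂]
  · change h ≫ (shiftFunctor D (1 : ℤ)).map (𝟙 X) = inv w ≫ h'
    rw [CategoryTheory.Functor.map_id, Category.comp_id, e₃, IsIso.inv_hom_id_assoc]

end

/-- The pretriangulated structure. -/
@[reducible]
def pretriangulated : Pretriangulated D where
  distinguishedTriangles := dist
  isomorphic_distinguished T₁ h T₂ e := P.iso T₁ h T₂ e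
  contractible_distinguished := P.contractible
  distinguished_cocone_triangle f := P.cocone f
  rotate_distinguished_triangle T := ⟨P.rotate T, fun h => P.mem_of_rotateMk h⟩
  complete_distinguished_triangle_morphism := P.complete

end TriData

end Vale.Agent.P251.H
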