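import Vale.Agent.P251.H.Cof.Add
import Vale.Agent.P251.H.Cof.Tri1
import Vale.Agent.P251.H.Cof.Tri2

/-!
# P251, part H: the localization of a stable cofibration category is triangulated

`L : C ⥤ D` is a localization functor for the weak equivalences of a cofibration category `C`,
`D` has a shift by `ℤ` and `τ : Susp ⋙ L ≅ L ⋙ shiftFunctor D 1`. Then `D` has a zero object,
binary coproducts, a preadditive structure (`locPreadditive τ`), its shift functors are
additive, and for ANY preadditive structure on `D` the class `dist τ` defines a pretriangulated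
structure (`locPretriangulated τ`) which is triangulated (`locIsTriangulated τ`).
-/

open CategoryTheory Limits Category Pretriangulated ZeroObject

universe w v u v' u'

set_option linter.unusedSectionVars false

namespace Vale.Agent.P251.H

open CofCat

variable {C : Type u} [Category.{v} C] [HasZeroObject C] [HasZeroMorphisms C]
  [HasBinaryCoproducts C] [CofCat C]

variable {D : Type u'} [Category.{v'} D]

section

variable (L : C ⥤ D) [L.IsLocalization (CofCat.W (C := C))]

include L in
theorem locHasZeroObject : HasZeroObject D := CofCat.hasZeroObject L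

theorem loc_preservesZeroMorphisms [HasZeroMorphisms D] : L.PreservesZeroMorphisms := by
  have h : L.map (0 : (0 : C) ⟶ (0 : C)) = 0 := (isZero_map L (isZero_zero C)).eq_of_src _ _
  refine ⟨fun X Y => ?_⟩
  have e : (0 : X ⟶ Y) = (0 : X ⟶ (0 : C)) ≫ (0 : (0 : C) ⟶ Y) := by simp
  have h2 : L.map (0 : X ⟶ (0 : C)) = 0 := (isZero_map L (isZero_zero C)).eq_of_tgt _ _
  rw [e, L.map_comp, h2, zero_comp]

end

section

variable {L : C ⥤ D} [L.IsLocalization (CofCat.W (C := C))] {E : D ⥤ D} [E.IsEquivalence]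
  (τ : Susp ⋙ L ≅ L ⋙ E)

/-- The preadditive structure of the localization of a stable cofibration category. -/
@[reducible]
noncomputable def locPreadditive : Preadditive D :=
  haveI : HasZeroObject D := CofCat.hasZeroObject L
  letI : HasZeroMorphisms D := HasZeroObject.zeroMorphismsOfZeroObject
  haveI : HasBinaryCoproducts D := CofCat.hasBinaryCoproducts L
  haveI : L.PreservesZeroMorphisms := loc_preservesZeroMorphisms L
  haveI : PreservesColimitsOfShape (Discrete WalkingPair) L := preservesBinaryCoproducts L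
  CofCat.preadditive L E τ

include τ in
/-- For every preadditive structure on `D`, the two collapse maps of the double cone are
opposite. -/
theorem loc_map_q₁ [P : Preadditive D] (A : C) :
    L.map (CofCat.q₁ A) = - L.map (CofCat.q₀ A) := by
  have : HasBinaryCoproducts D := CofCat.hasBinaryCoproducts L
  have : HasBinaryBiproducts D := HasBinaryBiproducts.of_hasBinaryCoproducts
  have : L.PreservesZeroMorphisms := loc_preservesZeroMorphisms L
  have : PreservesColimitsOfShape (Discrete WalkingPair) L := preservesBinaryCoproducts L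
  have h : CofCat.preadditive L E τ = P := Subsingleton.elim _ _
  have h2 := CofCat.map_q₁ L E τ A
  rw [h] at h2
  exact h2

end

section

variable {L : C ⥤ D} [L.IsLocalization (CofCat.W (C := C))] [HasShift D ℤ]

include L in
theorem locShift_additive [Preadditive D] (n : ℤ) : (shiftFunctor D n).Additive := by
  have : HasBinaryCoproducts D := CofCat.hasBinaryCoproducts L
  exact additive_of_isEquivalence _

variable (τ : Susp ⋙ L ≅ L ⋙ shiftFunctor D (1 : ℤ)) [Preadditive D] [HasZeroObject D]
  [∀ n : ℤ, (shiftFunctor D n).Additive]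

/-- The axioms of a pretriangulated category for `dist τ`. -/
theorem triData : TriData (dist τ) where
  iso _ h _ e := dist_of_iso h e
  contractible X := dist_contractible τ X
  cocone f := dist_cocone τ f
  rotate T hT := dist_rotate (loc_map_q₁ τ) T hT
  complete T₁ T₂ h₁ h₂ a b w := dist_complete T₁ T₂ h₁ h₂ a b w

/-- **The pretriangulated structure** on the localization of a stable cofibration category. -/
@[reducible]
def locPretriangulated : Pretriangulated D := (triData τ).pretriangulated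

/-- **The octahedral axiom** in the localization of a stable cofibration category. -/
theorem locIsTriangulated :
    letI := locPretriangulated τ
    IsTriangulated D := by
  let _ := locPretriangulated τ
  refine IsTriangulated.mk' fun X₁' X₂' X₃' u₁₂' u₂₃' => ?_
  obtain ⟨X₁, X₂, X₃, Z₁₂, Z₂₃, Z₁₃, u₁₂, u₂₃, e₁, e₂, e₃, c₁, c₂, v₁₂, w₁₂, h₁₂, v₂₃, w₂₃, h₂₃,
    v₁₃, w₁₃, h₁₃, m₁, m₃, k₁, k₂, k₃, k₄, k₅⟩ := exists_octahedron_aux (τ := τ) u₁₂' u₂₃'
  exact ⟨X₁, X₂, X₃, Z₁₂, Z₂₃, Z₁₃, u₁₂, u₂₃, e₁, e₂, e₃, c₁, c₂, v₁₂, w₁₂, h₁₂, v₂₃, w₂₃, h₂₃,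
    v₁₃, w₁₃, h₁₃, ⟨{ m₁ := m₁, m₃ := m₃, comm₁ := k₁, comm₂ := k₂, comm₃ := k₃, comm₄ := k₄,
                      mem := k₅ }⟩⟩

omit [Preadditive D] [HasZeroObject D] [∀ n : ℤ, (shiftFunctor D n).Additive] in
/-- The mapping cone sequence of an arbitrary morphism of `C`. -/
theorem locCone_mem_dist {A B P : C} (f : A ⟶ B) {a : B ⟶ P} {b : Cone.obj A ⟶ P}
    (hP : IsPushout f (cin A) a b) {d : P ⟶ Susp.obj A} (h₁ : a ≫ d = 0) (h₂ : b ≫ d = cpr A) :
    Triangle.mk (L.map f) (L.map a) (L.map d ≫ τ.hom.app A) ∈ dist τ := by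
  obtain ⟨M, j, r, k, hj, hr, hk, hjr, hkr⟩ := exists_factor f
  obtain ⟨Q, q, z, hQ⟩ := exists_pushout j (0 : A ⟶ (0 : C)) hj
  obtain rfl : z = 0 := (isZero_zero C).eq_of_src _ _
  obtain ⟨δ, hδ⟩ := exists_isConn τ hj hQ
  obtain ⟨P', a', b', r', d', hP', e1, e2, e3, e4, e5⟩ := hδ.exists_conn
  let p : P' ⟶ P := hP'.desc (r ≫ a) b (by rw [reassoc_of% hjr, hP.w])
  have hp₁ : a' ≫ p = r ≫ a := hP'.inl_desc _ _ _
  have hp₂ : b' ≫ p = b := hP'.inr_desc _ _ _
  have hpd : p ≫ d = d' := by
    apply hP'.hom_ext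
    · rw [reassoc_of% hp₁, h₁, comp_zero, e3]
    · rw [reassoc_of% hp₂, h₂, e4]
  have hp : W p := by
    refine gluing hP'.flip hP.flip (cof_cin A) (cof_cin A) (W_id _) (W_id _) hr ?_ ?_ p ?_ hp₁
    · rw [Category.comp_id, Category.id_comp]
    · rw [hjr, Category.id_comp]
    · rw [hp₂, Category.id_comp]
  have i₁ := isIso_map L (W_collapse hj hQ hP' e1 e2)
  have i₂ := isIso_map L hp
  have i₃ := isIso_map L hr
  refine dist_of_exists hδ (Iso.refl _) (asIso (L.map r)).symm
    ((asIso (L.map p)).symm ≪≫ asIso (L.map r')) ?_ ?_ ?_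
  · change L.map f ≫ inv (L.map r) = 𝟙 _ ≫ L.map j
    rw [IsIso.comp_inv_eq, Category.id_comp, ← L.map_comp, hjr]
  · change L.map a ≫ inv (L.map p) ≫ L.map r' = inv (L.map r) ≫ L.map q
    rw [← cancel_epi (L.map r), IsIso.hom_inv_id_assoc, ← L.map_comp_assoc, ← hp₁,
      L.map_comp_assoc, IsIso.hom_inv_id_assoc, ← L.map_comp, e1]
  · change (L.map d ≫ τ.hom.app A) ≫ (𝟙 (L.obj A))⟦(1 : ℤ)⟧' =
      (inv (L.map p) ≫ L.map r') ≫ δ
    rw [CategoryTheory.Functor.map_id]
    refine (Category.comp_id _).trans ?_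
    rw [Category.assoc, e5, ← cancel_epi (L.map p), IsIso.hom_inv_id_assoc, ← L.map_comp_assoc,
      hpd]

/-- The mapping cone triangle of an arbitrary morphism of `C` is distinguished. -/
theorem locCone_distinguished {A B P : C} (f : A ⟶ B) {a : B ⟶ P} {b : Cone.obj A ⟶ P}
    (hP : IsPushout f (cin A) a b) {d : P ⟶ Susp.obj A} (h₁ : a ≫ d = 0) (h₂ : b ≫ d = cpr A) :
    letI := locPretriangulated τ
    Triangle.mk (L.map f) (L.map a) (L.map d ≫ τ.hom.app A) ∈ distTriang D :=
  locCone_mem_dist τ f hP h₁ h₂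

/-- The image of a cofibre sequence with its connecting morphism is distinguished. -/
theorem IsConn.distinguished {A B Q : C} {j : A ⟶ B} {q : B ⟶ Q}
    {δ : L.obj Q ⟶ (L.obj A)⟦(1 : ℤ)⟧} (h : IsConn τ j q δ) :
    letI := locPretriangulated τ
    Triangle.mk (L.map j) (L.map q) δ ∈ distTriang D :=
  h.mem_dist

end

end Vale.Agent.P251.H
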