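import Mathlib.CategoryTheory.Preadditive.Basic
import Mathlib.CategoryTheory.Limits.Shapes.BinaryProducts
import Mathlib.CategoryTheory.Limits.Shapes.ZeroMorphisms
import Mathlib.CategoryTheory.Localization.Predicate
import Mathlib.CategoryTheory.Equivalence

/-!
# P251, part H: preadditive structures from natural co-divisions

A natural map `c X : X ⟶ X ⨿ X` in a category with zero morphisms and binary coproducts, with
`c ≫ [1, 0] = 1`, `c ≫ [1, 1] = 0` and Ward's identity `(a / d) / (b / d) = a / b` for
`a / b := c ≫ [a, b]`, makes the category preadditive with `a - b = c ≫ [a, b]`.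
-/

open CategoryTheory Limits

universe v u v' u'

namespace Vale.Agent.P251.H

section ward

variable {G : Type*} (e : G) (d : G → G → G)

/-- Ward's axioms for the division in a group. -/
structure IsWard : Prop where
  right_unit (a : G) : d a e = a
  self (a : G) : d a a = e
  ward (a b c : G) : d (d a c) (d b c) = d a b

variable {e d}

namespace IsWard

theorem inv_div (h : IsWard e d) (a b : G) : d e (d a b) = d b a := by
  rw [← h.self b, h.ward]

theorem inv_inv (h : IsWard e d) (a : G) : d e (d e a) = a := by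
  rw [h.inv_div, h.right_unit]

theorem key (h : IsWard e d) (a x y : G) : d (d a x) y = d a (d y (d e x)) := by
  have hz : d (d y (d e x)) x = y := by
    have := h.ward y e (d e x)
    rw [h.inv_inv, h.right_unit] at this
    exact this
  have := h.ward a (d y (d e x)) x
  rwa [hz] at this

/-- The group whose division is `d`. -/
@[reducible]
def addGroup (h : IsWard e d) : AddGroup G :=
  letI : Zero G := ⟨e⟩
  letI : Add G := ⟨fun a b => d a (d e b)⟩
  letI : Neg G := ⟨fun a => d e a⟩
  letI : Sub G := ⟨d⟩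
  { sub_eq_add_neg := fun a b => (congrArg (d a) (h.inv_inv b)).symm
    add_assoc := fun a b c => by
      change d (d a (d e b)) (d e c) = d a (d e (d b (d e c)))
      rw [h.key, h.inv_inv, h.inv_div]
    zero_add := fun a => h.inv_inv a
    add_zero := fun a => by
      change d a (d e e) = a
      rw [h.self, h.right_unit]
    neg_add_cancel := fun a => h.self _
    nsmul := nsmulRec
    zsmul := zsmulRec }

end IsWard

end ward

variable {D : Type u} [Category.{v} D] [HasZeroMorphisms D] [HasBinaryCoproducts D]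

/-- Co-division structures on an object. -/
structure IsCoDiv {X : D} (c : X ⟶ X ⨿ X) : Prop where
  right_unit : c ≫ coprod.desc (𝟙 X) 0 = 𝟙 X
  self : c ≫ coprod.desc (𝟙 X) (𝟙 X) = 0
  ward {Y : D} (a b d : X ⟶ Y) :
    c ≫ coprod.desc (c ≫ coprod.desc a d) (c ≫ coprod.desc b d) = c ≫ coprod.desc a b

theorem IsCoDiv.isWard {X : D} {c : X ⟶ X ⨿ X} (h : IsCoDiv c) (Y : D) :
    IsWard (0 : X ⟶ Y) (fun a b => c ≫ coprod.desc a b) where
  right_unit a := by
    have : coprod.desc a (0 : X ⟶ Y) = coprod.desc (𝟙 X) 0 ≫ a := by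
      rw [coprod.desc_comp, Category.id_comp, zero_comp]
    rw [this, ← Category.assoc, h.right_unit, Category.id_comp]
  self a := by
    have : coprod.desc a a = coprod.desc (𝟙 X) (𝟙 X) ≫ a := by
      rw [coprod.desc_comp, Category.id_comp]
    rw [this, ← Category.assoc, h.self, zero_comp]
  ward a b d := h.ward a b d

theorem IsCoDiv.ofIso {X X' : D} {c : X ⟶ X ⨿ X} (h : IsCoDiv c) (i : X ≅ X') :
    IsCoDiv (i.inv ≫ c ≫ coprod.map i.hom i.hom) where
  right_unit := by
    rw [Category.assoc, Category.assoc, coprod.map_desc, Category.comp_id, comp_zero,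
      (h.isWard X').right_unit, i.inv_hom_id]
  self := by
    rw [Category.assoc, Category.assoc, coprod.map_desc, Category.comp_id,
      (h.isWard X').self, comp_zero]
  ward a b d := by
    simp only [Category.assoc, coprod.map_desc, Iso.hom_inv_id_assoc]
    rw [h.ward]

variable (D)

/-- A natural co-division on a category. -/
structure CoDiv where
  /-- the co-division -/
  c (X : D) : X ⟶ X ⨿ X
  naturality {X Y : D} (f : X ⟶ Y) : f ≫ c Y = c X ≫ coprod.map f f
  isCoDiv (X : D) : IsCoDiv (c X)

variable {D}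

namespace CoDiv

variable (s : CoDiv D)

/-- The division of morphisms. -/
noncomputable def div {X Y : D} (f g : X ⟶ Y) : X ⟶ Y := s.c X ≫ coprod.desc f g

theorem isWard (X Y : D) : IsWard (0 : X ⟶ Y) s.div := (s.isCoDiv X).isWard Y

theorem comp_div {X Y Z : D} (h : X ⟶ Y) (f g : Y ⟶ Z) :
    h ≫ s.div f g = s.div (h ≫ f) (h ≫ g) := by
  rw [div, ← Category.assoc, s.naturality, Category.assoc, coprod.map_desc, div]

theorem div_comp {X Y Z : D} (f g : X ⟶ Y) (h : Y ⟶ Z) :
    s.div f g ≫ h = s.div (f ≫ h) (g ≫ h) := by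
  rw [div, Category.assoc, coprod.desc_comp, div]

/-- The group structure on morphisms. -/
@[reducible]
noncomputable def addGroup (X Y : D) : AddGroup (X ⟶ Y) := (s.isWard X Y).addGroup

/-- The sum of morphisms. -/
noncomputable def sum {X Y : D} (f g : X ⟶ Y) : X ⟶ Y := s.div f (s.div 0 g)

theorem comp_sum {X Y Z : D} (h : X ⟶ Y) (f g : Y ⟶ Z) :
    h ≫ s.sum f g = s.sum (h ≫ f) (h ≫ g) := by
  rw [sum, comp_div, comp_div, comp_zero, sum]

theorem sum_comp {X Y Z : D} (f g : X ⟶ Y) (h : Y ⟶ Z) :
    s.sum f g ≫ h = s.sum (f ≫ h) (g ≫ h) := by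
  rw [sum, div_comp, div_comp, zero_comp, sum]

theorem sum_zero {X Y : D} (f : X ⟶ Y) : s.sum f 0 = f :=
  (s.addGroup X Y).add_zero f

theorem zero_sum {X Y : D} (f : X ⟶ Y) : s.sum 0 f = f :=
  (s.addGroup X Y).zero_add f

theorem inl_sum_inr (X : D) :
    s.sum (coprod.inl : X ⟶ X ⨿ X) coprod.inr = s.sum coprod.inr coprod.inl := by
  have h1 : s.sum (coprod.desc (0 : X ⟶ X) (𝟙 X) ≫ coprod.inr)
      (coprod.desc (𝟙 X) (0 : X ⟶ X) ≫ coprod.inl) = 𝟙 (X ⨿ X) := by
    apply coprod.hom_ext
    · rw [comp_sum, coprod.inl_desc_assoc, coprod.inl_desc_assoc, zero_comp, Category.id_comp,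
        zero_sum, Category.comp_id]
    · rw [comp_sum, coprod.inr_desc_assoc, coprod.inr_desc_assoc, zero_comp, Category.id_comp,
        sum_zero, Category.comp_id]
  have h2 : s.sum (coprod.inl : X ⟶ X ⨿ X) coprod.inr ≫ _ = s.sum coprod.inl coprod.inr ≫ _ :=
    congrArg (fun t => s.sum (coprod.inl : X ⟶ X ⨿ X) coprod.inr ≫ t) h1
  rw [Category.comp_id, comp_sum, sum_comp, sum_comp, coprod.inl_desc_assoc,
    coprod.inr_desc_assoc, coprod.inl_desc_assoc, coprod.inr_desc_assoc, zero_comp, zero_comp,
    Category.id_comp, Category.id_comp, zero_sum, sum_zero] at h2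
  exact h2.symm

theorem sum_comm {X Y : D} (f g : X ⟶ Y) : s.sum f g = s.sum g f := by
  have h : s.sum coprod.inl coprod.inr ≫ coprod.desc f g =
      s.sum coprod.inr coprod.inl ≫ coprod.desc f g :=
    congrArg (fun t => t ≫ coprod.desc f g) (s.inl_sum_inr X)
  rwa [sum_comp, sum_comp, coprod.inl_desc, coprod.inr_desc] at h

/-- The preadditive structure of a category with a natural co-division: `f - g = c ≫ [f, g]`. -/
@[reducible]
noncomputable def preadditive : Preadditive D where
  homGroup X Y :=
    { s.addGroup X Y with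
      add_comm := fun f g => s.sum_comm f g }
  add_comp _ _ _ f g h := s.sum_comp f g h
  comp_add _ _ _ h f g := s.comp_sum h f g

theorem preadditive_sub {X Y : D} (f g : X ⟶ Y) :
    (letI := s.preadditive; f - g) = s.c X ≫ coprod.desc f g := rfl

end CoDiv

end Vale.Agent.P251.H
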